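import Mathlib

/-!
Asymptotic moduli of convexity of a norm.
-/

noncomputable section

open Filter Topology

namespace Vale.Agent.P069

section

variable {X : Type} [NormedAddCommGroup X] [NormedSpace ℝ X]

/-- Closed subspaces of finite codimension. -/
def Cof (X : Type) [NormedAddCommGroup X] [NormedSpace ℝ X] : Type :=
  {F : Submodule ℝ X // IsClosed (F : Set X) ∧ FiniteDimensional ℝ (X ⧸ F)}

/-- The asymptotic modulus of uniform convexity of `N`. -/
def aucModulus (N : Seminorm ℝ X) (t : ℝ) : ℝ :=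
  ⨅ x : {x : X // N x = 1}, ⨆ F : Cof X, ⨅ y : {y : X // y ∈ F.1 ∧ N y = 1},
    (N (x.1 + t • y.1) - 1)

/-- The asymptotic modulus of midpoint uniform convexity of `N`. -/
def amucModulus (N : Seminorm ℝ X) (t : ℝ) : ℝ :=
  ⨅ x : {x : X // N x = 1}, ⨆ F : Cof X, ⨅ y : {y : X // y ∈ F.1 ∧ N y = 1},
    (max (N (x.1 + t • y.1)) (N (x.1 - t • y.1)) - 1)

/-- `N` is asymptotically uniformly convex. -/
def IsAUC (N : Seminorm ℝ X) : Prop := ∀ t > 0, 0 < aucModulus N t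

/-- `N` is asymptotically midpoint uniformly convex. -/
def IsAMUC (N : Seminorm ℝ X) : Prop := ∀ t > 0, 0 < amucModulus N t

/-- `N` is a norm equivalent to the norm of `X`. -/
def IsEquivNorm (N : Seminorm ℝ X) : Prop :=
  ∃ a b : ℝ, 0 < a ∧ 0 < b ∧ ∀ x, a * ‖x‖ ≤ N x ∧ N x ≤ b * ‖x‖

instance : Nonempty (Cof X) :=
  ⟨⟨⊤, isClosed_univ, inferInstance⟩⟩

theorem exists_unit_mem (hX : ¬ FiniteDimensional ℝ X) {N : Seminorm ℝ X} (hN : IsEquivNorm N)
    (F : Cof X) : ∃ y ∈ F.1, N y = 1 := by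
  obtain ⟨a, b, ha, -, hab⟩ := hN
  by_cases hF : F.1 = ⊥
  · exfalso
    apply hX
    have := F.2.2
    exact Module.Finite.equiv (Submodule.quotEquivOfEqBot F.1 hF)
  · obtain ⟨v, hv, hv0⟩ := Submodule.exists_mem_ne_zero_of_ne_bot hF
    have hpos : 0 < N v := lt_of_lt_of_le (mul_pos ha (norm_pos_iff.2 hv0)) (hab v).1
    refine ⟨(N v)⁻¹ • v, Submodule.smul_mem _ _ hv, ?_⟩
    rw [map_smul_eq_mul, Real.norm_eq_abs, abs_inv, abs_of_pos hpos, inv_mul_cancel₀ hpos.ne']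

theorem exists_of_modulus_pos (hX : ¬ FiniteDimensional ℝ X) {N : Seminorm ℝ X}
    (hN : IsEquivNorm N) (hA : IsAUC N) {t : ℝ} (ht : 0 < t) :
    ∃ δ > 0, ∀ x, N x = 1 → ∃ F : Cof X, ∀ y ∈ F.1, N y = 1 → 1 + δ ≤ N (x + t • y) := by
  refine ⟨aucModulus N t / 2, half_pos (hA t ht), fun x hx => ?_⟩
  have hbb : ∀ (z : {x : X // N x = 1}) (F : Cof X), BddBelow (Set.range fun
      y : {y : X // y ∈ F.1 ∧ N y = 1} => N (z.1 + t • y.1) - 1) := fun z F =>
    ⟨-1, by rintro _ ⟨y, rfl⟩; simp⟩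
  have hba : ∀ z : {x : X // N x = 1}, BddAbove (Set.range fun F : Cof X =>
      ⨅ y : {y : X // y ∈ F.1 ∧ N y = 1}, (N (z.1 + t • y.1) - 1)) := by
    refine fun z => ⟨t, ?_⟩
    rintro _ ⟨F, rfl⟩
    obtain ⟨y, hy, hy1⟩ := exists_unit_mem hX hN F
    refine (ciInf_le (hbb z F) ⟨y, hy, hy1⟩).trans ?_
    have := map_add_le_add N z.1 (t • y)
    rw [map_smul_eq_mul, Real.norm_eq_abs, abs_of_pos ht, hy1, z.2] at this
    linarith
  have hout : BddBelow (Set.range fun z : {x : X // N x = 1} => ⨆ F : Cof X,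
      ⨅ y : {y : X // y ∈ F.1 ∧ N y = 1}, (N (z.1 + t • y.1) - 1)) := by
    refine ⟨-1, ?_⟩
    rintro _ ⟨z, rfl⟩
    obtain ⟨F⟩ := (inferInstance : Nonempty (Cof X))
    obtain ⟨y, hy, hy1⟩ := exists_unit_mem hX hN F
    have : Nonempty {y : X // y ∈ F.1 ∧ N y = 1} := ⟨⟨y, hy, hy1⟩⟩
    exact le_trans (le_ciInf fun y => by simp) (le_ciSup (hba z) F)
  have h1 : aucModulus N t ≤ _ := ciInf_le hout ⟨x, hx⟩
  have h2 : aucModulus N t / 2 < _ := lt_of_lt_of_le (half_lt_self (hA t ht)) h1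
  obtain ⟨F, hF⟩ := exists_lt_of_lt_ciSup h2
  refine ⟨F, fun y hy hy1 => ?_⟩
  have h3 := ciInf_le (hbb ⟨x, hx⟩ F) ⟨y, hy, hy1⟩
  linarith

theorem le_amucModulus (hX : ¬ FiniteDimensional ℝ X) {N : Seminorm ℝ X} (hN : IsEquivNorm N)
    {t δ : ℝ} (ht : 0 < t)
    (h : ∀ x, N x = 1 → ∃ F : Cof X, ∀ y ∈ F.1, N y = 1 →
      1 + δ ≤ max (N (x + t • y)) (N (x - t • y))) : δ ≤ amucModulus N t := by
  obtain ⟨y₀, -, hy₀⟩ := exists_unit_mem hX hN ⟨⊤, isClosed_univ, inferInstance⟩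
  have : Nonempty {x : X // N x = 1} := ⟨⟨y₀, hy₀⟩⟩
  refine le_ciInf fun x => ?_
  obtain ⟨F, hF⟩ := h x.1 x.2
  refine le_trans ?_ (le_ciSup ?_ F)
  · obtain ⟨y, hy, hy1⟩ := exists_unit_mem hX hN F
    have : Nonempty {y : X // y ∈ F.1 ∧ N y = 1} := ⟨⟨y, hy, hy1⟩⟩
    refine le_ciInf fun y => ?_
    have := hF y.1 y.2.1 y.2.2
    linarith
  · refine ⟨t, ?_⟩
    rintro _ ⟨G, rfl⟩
    obtain ⟨y, hy, hy1⟩ := exists_unit_mem hX hN G
    refine (ciInf_le ⟨-1, ?_⟩ ⟨y, hy, hy1⟩).trans ?_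
    · rintro _ ⟨z, rfl⟩
      simp
    · have h1 := map_add_le_add N x.1 (t • y)
      have h2 := map_sub_le_add N x.1 (t • y)
      rw [map_smul_eq_mul, Real.norm_eq_abs, abs_of_pos ht, hy1, x.2] at h1 h2
      rw [sub_le_iff_le_add]
      exact max_le (by linarith) (by linarith)

/-- Weakly null sequences approach every closed subspace of finite codimension. -/
theorem exists_approx_mem (F : Cof X) (e : ℕ → X)
    (he : ∀ ψ : StrongDual ℝ X, Tendsto (fun m => ψ (e m)) atTop (𝓝 0)) :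
    ∃ y : ℕ → X, (∀ m, y m ∈ F.1) ∧ Tendsto (fun m => ‖e m - y m‖) atTop (𝓝 0) := by
  obtain ⟨F, hF, hfin⟩ := F
  have : IsClosed (F : Set X) := hF
  let b := Module.finBasis ℝ (X ⧸ F)
  let c := b.equivFun.toContinuousLinearEquiv
  let q : X →L[ℝ] X ⧸ F := ⟨F.mkQ, continuous_quot_mk⟩
  have h1 : Tendsto (fun m => c (q (e m))) atTop (𝓝 0) := by
    rw [tendsto_pi_nhds]
    intro i
    exact he (((ContinuousLinearMap.proj i).comp c.toContinuousLinearMap).comp q)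
  have h2 : Tendsto (fun m => q (e m)) atTop (𝓝 0) := by
    have := (c.symm.continuous.tendsto 0).comp h1
    simpa [Function.comp_def] using this
  obtain ⟨s, hs⟩ := F.mkQ.exists_rightInverse_of_surjective (Submodule.range_mkQ F)
  refine ⟨fun m => e m - s (q (e m)), fun m => ?_, ?_⟩
  · rw [← Submodule.Quotient.mk_eq_zero, Submodule.Quotient.mk_sub]
    have := LinearMap.congr_fun hs (q (e m))
    simp only [LinearMap.comp_apply, LinearMap.id_apply, Submodule.mkQ_apply] at this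
    rw [this]
    exact sub_self _
  · have hc := (s.continuous_of_finiteDimensional.tendsto 0).comp h2
    rw [map_zero] at hc
    have := hc.norm
    simpa [Function.comp_def] using this

theorem le_of_convex_step {N : Seminorm ℝ X} {x y : X} {t s δ : ℝ} (hx : N x = 1) (ht : 0 < t)
    (hts : t ≤ s) (hδ : 0 ≤ δ) (h : 1 + δ ≤ N (x + t • y)) : 1 + δ ≤ N (x + s • y) := by
  have hs : 0 < s := ht.trans_le hts
  set l := t / s with hl
  have hl0 : 0 < l := div_pos ht hs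
  have hl1 : l ≤ 1 := (div_le_one hs).2 hts
  have hls : l * s = t := div_mul_cancel₀ t hs.ne'
  have e : x + t • y = (1 - l) • x + l • (x + s • y) := by
    rw [smul_add, smul_smul, hls, sub_smul, one_smul]
    abel
  have h1 := map_add_le_add N ((1 - l) • x) (l • (x + s • y))
  rw [map_smul_eq_mul, map_smul_eq_mul, Real.norm_eq_abs, Real.norm_eq_abs,
    abs_of_nonneg (by linarith), abs_of_pos hl0, ← e, hx] at h1
  nlinarith

end

end Vale.Agent.P069
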