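import Vale.Agent.P069.Dual
import Vale.Agent.P069.Moduli

/-!
The dual norm of the dual of `JT` is asymptotically midpoint uniformly convex.
-/

noncomputable section

namespace Vale.Agent.P069

/-- The supremum of the oscillation of `g` below the point `p` and off `Φ`. -/
def weight (Φ : Finset Node) (g : JT) (p : Node) : ℝ :=
  sSup {r | ∃ l : List ℕ, l.length ≤ p.1 ∧ anc Φ (p.1, l) = p ∧
    r = |pot g (p.1, l) - pot g p|}

theorem bddAbove_weightSet (Φ : Finset Node) (g : JT) (p : Node) :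
    BddAbove {r | ∃ l : List ℕ, l.length ≤ p.1 ∧ anc Φ (p.1, l) = p ∧
      r = |pot g (p.1, l) - pot g p|} := by
  refine ⟨2 * ‖g‖, ?_⟩
  rintro _ ⟨l, -, -, rfl⟩
  have := abs_pot_le g (p.1, l)
  have := abs_pot_le g p
  have := abs_sub (pot g (p.1, l)) (pot g p)
  linarith

theorem le_weight (Φ : Finset Node) (g : JT) (n : ℕ) (l : List ℕ) (h : l.length ≤ n) :
    |pot g (n, l) - pot g (anc Φ (n, l))| ≤ weight Φ g (anc Φ (n, l)) :=
  le_csSup (bddAbove_weightSet Φ g _) ⟨l, h, rfl, rfl⟩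

theorem weight_witness (Φ : Finset Node) (g : JT) (n : ℕ) (l : List ℕ) (h : l.length ≤ n) :
    ∃ l' : List ℕ, l'.length ≤ n ∧ anc Φ (n, l') = anc Φ (n, l) ∧
      weight Φ g (anc Φ (n, l)) ≤ 2 * |pot g (n, l') - pot g (anc Φ (n, l))| := by
  by_cases hw : weight Φ g (anc Φ (n, l)) ≤ 0
  · exact ⟨l, h, rfl, hw.trans (by positivity)⟩
  push Not at hw
  obtain ⟨r, ⟨l', hl', he, rfl⟩, hr⟩ := exists_lt_of_lt_csSup (s := {r | ∃ l' : List ℕ,
      l'.length ≤ (anc Φ (n, l)).1 ∧ anc Φ ((anc Φ (n, l)).1, l') = anc Φ (n, l) ∧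
      r = |pot g ((anc Φ (n, l)).1, l') - pot g (anc Φ (n, l))|})
    ⟨_, l, h, rfl, rfl⟩ (half_lt_self hw)
  refine ⟨l', hl', he, ?_⟩
  unfold weight
  simp only [anc] at hr ⊢
  linarith

open Classical in
/-- Restriction to the cones below the points satisfying `P`. -/
def restr (Φ : Finset Node) (P : Node → Prop) (K : Node → ℝ) (v : Node) : ℝ :=
  if P (anc Φ v) then K v else 0

/-- A potential living off `Φ` and dominated by the oscillation of `G`. -/
structure Outer (Φ : Finset Node) (G K : Node → ℝ) : Prop where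
  abs_le : ∀ n l, l.length ≤ n → |K (n, l)| ≤ |G (n, l) - G (anc Φ (n, l))|
  lip : ∀ n l l', anc Φ (n, l) = anc Φ (n, l') → |K (n, l) - K (n, l')| ≤ |G (n, l) - G (n, l')|

theorem outer_restr {Φ : Finset Node} {G K : Node → ℝ} (P : Node → Prop) (h : Outer Φ G K) :
    Outer Φ G (restr Φ P K) := by
  constructor
  · intro n l hl
    unfold restr
    split_ifs
    · exact h.abs_le n l hl
    · simp
  · intro n l l' he
    unfold restr
    rw [he]
    split_ifs
    · exact h.lip n l l' he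
    · simp

theorem outer_neg {Φ : Finset Node} {G K : Node → ℝ} (h : Outer Φ G K) :
    Outer Φ G (fun v => -K v) := by
  refine ⟨fun n l hl => ?_, fun n l l' he => ?_⟩
  · simpa using h.abs_le n l hl
  · rw [neg_sub_neg, abs_sub_comm]; exact h.lip n l l' he

theorem outer_max (Φ : Finset Node) (G : Node → ℝ) :
    Outer Φ G (fun v => max (G v - G (anc Φ v)) 0) := by
  refine ⟨fun n l _ => ?_, fun n l l' he => ?_⟩
  · rw [abs_of_nonneg (le_max_right _ _)]
    exact max_le (le_abs_self _) (abs_nonneg _)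
  · refine (abs_max_sub_max_le_abs _ _ _).trans ?_
    rw [he, sub_sub_sub_cancel_right]

theorem outer_max' (Φ : Finset Node) (G : Node → ℝ) :
    Outer Φ G (fun v => max (G (anc Φ v) - G v) 0) := by
  refine ⟨fun n l _ => ?_, fun n l l' he => ?_⟩
  · rw [abs_of_nonneg (le_max_right _ _), abs_sub_comm]
    exact max_le (le_abs_self _) (abs_nonneg _)
  · refine (abs_max_sub_max_le_abs _ _ _).trans ?_
    rw [he, sub_sub_sub_cancel_left, abs_sub_comm]

theorem Outer.root {Φ : Finset Node} {G K : Node → ℝ} (h : Outer Φ G K) (n : ℕ) :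
    K (n, []) = 0 := by
  have := h.abs_le n [] (Nat.zero_le _)
  rwa [anc_of_inB (Or.inl rfl), sub_self, abs_zero, abs_nonpos_iff] at this

theorem Outer.sqBound {Φ : Finset Node} (hΦ : Downset Φ) {g : JT} {K : Node → ℝ}
    (h : Outer Φ (pot g) K) : SqBound K (13 * ‖g‖ ^ 2) := by
  have hz : SqBound (fun _ : Node => (0:ℝ)) 0 := by
    intro L _; simp [sumsq, val]
  have hw0 : ∀ n l, l.length ≤ n → 0 ≤ weight Φ g (anc Φ (n, l)) := fun n l hl =>
    (abs_nonneg _).trans (le_weight Φ g n l hl)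
  have hw0' : ∀ p : Node, 0 ≤ weight Φ g p := by
    intro p
    exact Real.sSup_nonneg (by rintro _ ⟨l, -, -, rfl⟩; exact abs_nonneg _)
  have := sqBound_glue hΦ (G' := K) hz (sqBound_pot g) zero_le_one (weight Φ g)
    (le_weight Φ g) (weight_witness Φ g) h.abs_le h.lip
    (fun n l ⟨i, hi, _⟩ => by exfalso; have := hw0' (anc Φ (n, l)); linarith)
    (fun n l ⟨i, hi, _⟩ => by exfalso; have := hw0' (anc Φ (n, l)); linarith)
  simpa using this

theorem exists_big_of_sum {a b c d r : ℝ} (h : r ≤ |a + b - c - d|) :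
    r / 4 ≤ |a| ∨ r / 4 ≤ |b| ∨ r / 4 ≤ |c| ∨ r / 4 ≤ |d| := by
  by_contra hc
  push Not at hc
  have h1 := abs_sub (a + b - c) d
  have h2 := abs_sub (a + b) c
  have h3 := abs_add_le a b
  linarith [hc.1, hc.2.1, hc.2.2.1, hc.2.2.2]

/-- A tail part of `g` with the signs needed in `sqBound_glue`, on which `y` is large. -/
theorem exists_signed_part {Φ : Finset Node} (hΦ : Downset Φ) (y : DualJT)
    (hy : ∀ u ∈ Φ, y (unit u) = 0) (g : JT) (F : Node → ℝ) {ε : ℝ} (hε : 0 ≤ ε) :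
    ∃ K : Node → ℝ, ∃ k : JT, Outer Φ (pot g) K ∧
      (∀ n l, l.length ≤ n → pot k (n, l) = K (n, l)) ∧
      (∀ n l, PosExit F (ε * weight Φ g (anc Φ (n, l))) (anc Φ (n, l)) → K (n, l) ≤ 0) ∧
      (∀ n l, NegExit F (ε * weight Φ g (anc Φ (n, l))) (anc Φ (n, l)) → 0 ≤ K (n, l)) ∧
      |y g| / 4 ≤ |y k| := by
  classical
  set G := pot g with hG
  let P : Node → Prop := fun p => PosExit F (ε * weight Φ g p) p
  let A : Node → ℝ := fun v => max (G v - G (anc Φ v)) 0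
  let B : Node → ℝ := fun v => max (G (anc Φ v) - G v) 0
  have hA : Outer Φ G A := outer_max Φ G
  have hB : Outer Φ G B := outer_max' Φ G
  have hθ : ∀ p, 0 ≤ ε * weight Φ g p := fun p =>
    mul_nonneg hε (Real.sSup_nonneg (by rintro _ ⟨l, -, -, rfl⟩; exact abs_nonneg _))
  let el : ∀ K, Outer Φ G K → JT := fun K h => mk K (h.sqBound hΦ)
  have hel : ∀ K (h : Outer Φ G K) n l, l.length ≤ n → pot (el K h) (n, l) = K (n, l) :=
    fun K h n l hl => pot_mk K _ n l hl (h.root n)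
  let K₁ := fun v => -restr Φ P A v
  let K₂ := restr Φ (fun p => ¬P p) A
  let K₃ := fun v => -restr Φ P B v
  let K₄ := restr Φ (fun p => ¬P p) B
  have o1 : Outer Φ G K₁ := outer_neg (outer_restr P hA)
  have o2 : Outer Φ G K₂ := outer_restr _ hA
  have o3 : Outer Φ G K₃ := outer_neg (outer_restr P hB)
  have o4 : Outer Φ G K₄ := outer_restr _ hB
  have hsum : g - proj Φ g = el K₂ o2 - el K₁ o1 - el K₄ o4 + el K₃ o3 := by
    apply jt_ext
    intro n l hl
    rw [pot_sub, pot_proj hΦ g n l hl, pot_add, pot_sub, pot_sub, hel _ o1 n l hl, hel _ o2 n l hl,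
      hel _ o3 n l hl, hel _ o4 n l hl, ← hG]
    simp only [K₁, K₂, K₃, K₄, restr, A, B]
    by_cases hp : P (anc Φ (n, l))
    · rw [if_pos hp, if_pos hp, if_neg (not_not.2 hp), if_neg (not_not.2 hp)]
      rcases le_total (G (n, l)) (G (anc Φ (n, l))) with hc | hc
      · rw [max_eq_right (by linarith), max_eq_left (by linarith)]; ring
      · rw [max_eq_left (by linarith), max_eq_right (by linarith)]; ring
    · rw [if_neg hp, if_neg hp, if_pos hp, if_pos hp]
      rcases le_total (G (n, l)) (G (anc Φ (n, l))) with hc | hc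
      · rw [max_eq_right (by linarith), max_eq_left (by linarith)]; ring
      · rw [max_eq_left (by linarith), max_eq_right (by linarith)]; ring
  have hy' : y g = y (el K₂ o2) - y (el K₁ o1) - y (el K₄ o4) + y (el K₃ o3) := by
    rw [← map_sub, ← map_sub, ← map_add, ← hsum, map_sub]
    have : y (proj Φ g) = 0 := by
      simp only [proj, comb, map_sum, map_smul, smul_eq_mul]
      exact Finset.sum_eq_zero fun u hu => by rw [hy u hu, mul_zero]
    rw [this, sub_zero]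
  have nonpos : ∀ C : Node → ℝ, (∀ v, 0 ≤ C v) → ∀ n l,
      (PosExit F (ε * weight Φ g (anc Φ (n, l))) (anc Φ (n, l)) → -restr Φ P C (n, l) ≤ 0) ∧
      (NegExit F (ε * weight Φ g (anc Φ (n, l))) (anc Φ (n, l)) → 0 ≤ -restr Φ P C (n, l)) := by
    intro C hC n l
    refine ⟨fun h => ?_, fun h => ?_⟩
    · rw [restr, if_pos h]; linarith [hC (n, l)]
    · rw [restr, if_neg fun h' : P _ => not_neg_of_posExit (hθ _) h' h, neg_zero]
  have nonneg : ∀ C : Node → ℝ, (∀ v, 0 ≤ C v) → ∀ n l,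
      (PosExit F (ε * weight Φ g (anc Φ (n, l))) (anc Φ (n, l)) →
        restr Φ (fun p => ¬P p) C (n, l) ≤ 0) ∧
      (NegExit F (ε * weight Φ g (anc Φ (n, l))) (anc Φ (n, l)) →
        0 ≤ restr Φ (fun p => ¬P p) C (n, l)) := by
    intro C hC n l
    refine ⟨fun h => ?_, fun h => ?_⟩
    · rw [restr, if_neg (not_not.2 (h : P _))]
    · rw [restr, if_pos fun h' : P _ => not_neg_of_posExit (hθ _) h' h]; exact hC _
  have hA0 : ∀ v, 0 ≤ A v := fun v => le_max_right _ _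
  have hB0 : ∀ v, 0 ≤ B v := fun v => le_max_right _ _
  have hbig : |y g| ≤ |y (el K₂ o2) + y (el K₃ o3) - y (el K₁ o1) - y (el K₄ o4)| :=
    le_of_eq (by rw [hy']; ring_nf)
  rcases exists_big_of_sum hbig with h | h | h | h
  · exact ⟨K₂, _, o2, hel _ o2, fun n l => (nonneg A hA0 n l).1, fun n l => (nonneg A hA0 n l).2, h⟩
  · exact ⟨K₃, _, o3, hel _ o3, fun n l => (nonpos B hB0 n l).1, fun n l => (nonpos B hB0 n l).2, h⟩
  · exact ⟨K₁, _, o1, hel _ o1, fun n l => (nonpos A hA0 n l).1, fun n l => (nonpos A hA0 n l).2, h⟩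
  · exact ⟨K₄, _, o4, hel _ o4, fun n l => (nonneg B hB0 n l).1, fun n l => (nonneg B hB0 n l).2, h⟩

theorem glue_bound_le {ε : ℝ} {φn : ℝ} (h : φn ^ 2 ≤ 1 + 13 * ε ^ 2) :
    φn ≤ 1 + 13 / 2 * ε ^ 2 := by
  nlinarith [sq_nonneg (ε ^ 2)]

theorem final_bound {τ t M K X Y : ℝ} (hτ : 0 < τ) (hτ1 : τ ≤ 1) (hτt : τ ≤ t) (hM : 0 ≤ M)
    (hK : K ≤ 1 + 13 / 2 * (τ / 80) ^ 2) (hX : 1 - 4 * (τ * (τ / 80) / 100) ≤ X)
    (hY : (1 - τ * (τ / 80) / 100) / 4 ≤ Y) (hMK : X + t * (τ / 80) * Y ≤ M * K) :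
    1 + τ ^ 2 / 1000 ≤ M := by
  have hτ2 : τ ^ 2 ≤ 1 := pow_le_one₀ hτ.le hτ1
  have hY' : 24 / 100 ≤ Y := by nlinarith
  have h1 : τ * (τ / 80) * (24 / 100) ≤ t * (τ / 80) * Y :=
    mul_le_mul (mul_le_mul_of_nonneg_right hτt (by positivity)) hY' (by norm_num)
      (mul_nonneg (hτ.le.trans hτt) (by positivity))
  have h2 := hMK.trans (mul_le_mul_of_nonneg_left hK hM)
  by_contra hc
  push Not at hc
  have h3 := mul_le_mul_of_nonneg_right hc.le (by positivity : (0:ℝ) ≤ 1 + 13 / 2 * (τ / 80) ^ 2)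
  nlinarith [mul_le_mul_of_nonneg_left hτ2 (sq_nonneg τ), mul_pos hτ hτ]

theorem amuc_step (x : DualJT) (hx : ‖x‖ = 1) {t : ℝ} (ht : 0 < t) :
    ∃ Φ : Finset Node, ∀ y : DualJT, ‖y‖ = 1 → (∀ u ∈ Φ, y (unit u) = 0) →
      1 + min t 1 ^ 2 / 1000 ≤ max ‖x + t • y‖ ‖x - t • y‖ := by
  obtain ⟨τ, rfl⟩ : ∃ τ, τ = min t 1 := ⟨_, rfl⟩
  set τ := min t 1
  have hτ : 0 < τ := lt_min ht one_pos
  have hτ1 : τ ≤ 1 := min_le_right _ _
  set ε := τ / 80 with hεdef
  have hε : 0 < ε := by positivity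
  set η := τ * ε / 100 with hηdef
  have hη : 0 < η := by positivity
  obtain ⟨Φ, hΦ, hsmall⟩ := exists_small x hη
  refine ⟨Φ, fun y hy1 hyΦ => ?_⟩
  obtain ⟨φ₀, hφ₀, hxφ⟩ := exists_near_norm x hη
  obtain ⟨g, hg, hyg⟩ := exists_near_norm y hη
  rw [hx] at hxφ
  rw [hy1] at hyg
  obtain ⟨K, k, hK, hk, hpos, hneg, hbig⟩ := exists_signed_part hΦ y hyΦ g (pot φ₀) hε.le
  set φ := proj Φ φ₀ + ε • k with hφdef
  have hpot : ∀ n l, l.length ≤ n →
      pot φ (n, l) = pot φ₀ (anc Φ (n, l)) + ε * K (n, l) := by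
    intro n l hl
    rw [hφdef, pot_add, pot_smul, pot_proj hΦ φ₀ n l hl, hk n l hl]
  have hnsq : ‖φ‖ ^ 2 ≤ 1 + 13 * ε ^ 2 := by
    refine (norm_sq_le_of_sqBound φ ((sqBound_glue hΦ (sqBound_pot φ₀) (sqBound_pot g) hε.le
      (weight Φ g) (le_weight Φ g) (weight_witness Φ g) hK.abs_le hK.lip hpos hneg).congr hpot)).trans ?_
    exact add_le_add (pow_le_one₀ (norm_nonneg _) hφ₀)
      (mul_le_of_le_one_right (by positivity) (pow_le_one₀ (norm_nonneg _) hg))
  have hn := glue_bound_le hnsq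
  have hvan : ∀ u ∈ Φ, pot (φ - φ₀) u = 0 := by
    intro u hu
    obtain ⟨n, l⟩ := u
    have hl := (hΦ _ hu).2.1
    have h0 := hK.abs_le n l hl
    rw [anc_of_inB (Or.inr hu), sub_self, abs_zero, abs_nonpos_iff] at h0
    rw [pot_sub, hpot n l hl, anc_of_inB (Or.inr hu), h0, mul_zero, add_zero, sub_self]
  have hX : 1 - 4 * η ≤ x φ := by
    have h1 := hsmall _ hvan
    have h2 : ‖φ - φ₀‖ ≤ 3 := by
      have := norm_sub_le φ φ₀
      have : ε ^ 2 ≤ 1 / 13 := by
        have : ε ≤ 1 / 80 := by rw [hεdef]; linarith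
        nlinarith
      linarith
    have h3 := (abs_le.1 (h1.trans (mul_le_mul_of_nonneg_left h2 hη.le))).1
    rw [map_sub] at h3
    linarith
  have hY : (1 - η) / 4 ≤ |y k| := le_trans (by linarith [le_abs_self (y g)]) hbig
  have hyφ : y φ = ε * y k := by
    have : y (proj Φ φ₀) = 0 := by
      simp only [proj, comb, map_sum, map_smul, smul_eq_mul]
      exact Finset.sum_eq_zero fun u hu => by rw [hyΦ u hu, mul_zero]
    rw [hφdef, map_add, map_smul, smul_eq_mul, this, zero_add]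
  refine final_bound hτ hτ1 (min_le_left _ _) (le_max_of_le_left (norm_nonneg (x + t • y))) hn hX hY ?_
  have h1 := (le_abs_self _).trans ((abs_apply_le (x + t • y) φ).trans
    (mul_le_mul_of_nonneg_right (le_max_left _ ‖x - t • y‖) (norm_nonneg φ)))
  have h2 := (le_abs_self _).trans ((abs_apply_le (x - t • y) φ).trans
    (mul_le_mul_of_nonneg_right (le_max_right ‖x + t • y‖ _) (norm_nonneg φ)))
  rw [add_apply, FunLike.coe_smul, Pi.smul_apply, smul_eq_mul, hyφ] at h1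
  rw [sub_apply, FunLike.coe_smul, Pi.smul_apply, smul_eq_mul, hyφ] at h2
  rw [hεdef] at h1 h2
  rcases abs_choice (y k) with h | h <;> rw [h] <;> linarith

theorem isAMUC_norm : IsAMUC (normSeminorm ℝ DualJT) := by
  intro t ht
  refine lt_of_lt_of_le (by positivity : 0 < min t 1 ^ 2 / 1000) ?_
  refine le_amucModulus not_finiteDimensional_dual ⟨1, 1, one_pos, one_pos, by simp⟩ ht ?_
  intro x hx
  obtain ⟨Φ, h⟩ := amuc_step x hx ht
  let T : DualJT →ₗ[ℝ] (Φ → ℝ) :=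
    LinearMap.pi fun u => (NormedSpace.inclusionInDoubleDual ℝ JT (unit u.1)).toLinearMap
  have hT : Continuous T := continuous_pi fun u =>
    (NormedSpace.inclusionInDoubleDual ℝ JT (unit u.1)).continuous
  refine ⟨⟨LinearMap.ker T, isClosed_eq hT continuous_const,
    Module.Finite.of_injective ((Submodule.liftQ _ T le_rfl))
      (LinearMap.ker_eq_bot.1 (Submodule.ker_liftQ_eq_bot _ T le_rfl le_rfl))⟩,
    fun y hy hy1 => h y hy1 fun u hu => ?_⟩
  exact congrFun (LinearMap.mem_ker.1 hy) ⟨u, hu⟩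

end Vale.Agent.P069
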