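import Vale.Agent.P069.Vanish

/-!
The dual of `JT`: density of the coordinates, reflexivity, weakly null children.
-/

noncomputable section

open Filter Topology

namespace Vale.Agent.P069

/-- The space of the counterexample. -/
abbrev DualJT := StrongDual ℝ JT

instance instNormedAddCommGroupDualJT : NormedAddCommGroup DualJT := inferInstance

instance instNormedSpaceDualJT : NormedSpace ℝ DualJT := inferInstance

theorem exists_span_near (x : DualJT) {η : ℝ} (hη : 0 < η) :
    ∃ Φ : Finset Node, Downset Φ ∧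
      ‖x - ∑ u ∈ Φ, x (unit u) • edgeCLM u‖ ≤ η := by
  obtain ⟨Φ, hΦ, h⟩ := exists_small x (half_pos hη)
  refine ⟨Φ, hΦ, ContinuousLinearMap.opNorm_le_bound _ hη.le fun φ => ?_⟩
  have e : (∑ u ∈ Φ, x (unit u) • edgeCLM u) φ = x (proj Φ φ) := by
    simp only [proj, comb, map_sum, map_smul, smul_eq_mul, ContinuousLinearMap.coe_sum',
      Finset.sum_apply, ContinuousLinearMap.coe_smul', Pi.smul_apply]
    exact Finset.sum_congr rfl fun u _ => mul_comm _ _
  rw [sub_apply, e, ← map_sub, Real.norm_eq_abs]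
  refine (h _ (pot_sub_proj hΦ φ)).trans ?_
  have h1 : ‖φ - proj Φ φ‖ ≤ 2 * ‖φ‖ := by
    have := norm_proj_le hΦ φ
    have := norm_sub_le φ (proj Φ φ)
    linarith
  have := mul_le_mul_of_nonneg_left h1 (half_pos hη).le
  linarith

theorem separableSpace_dual : TopologicalSpace.SeparableSpace DualJT := by
  rw [← TopologicalSpace.isSeparable_univ_iff]
  have h := ((Set.countable_range edgeCLM).isSeparable.span (R := ℝ)).closure
  refine h.mono fun x _ => ?_
  rw [Metric.mem_closure_iff]
  intro η hη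
  obtain ⟨Φ, -, hd⟩ := exists_span_near x (half_pos hη)
  refine ⟨∑ u ∈ Φ, x (unit u) • edgeCLM u, Submodule.sum_mem _ fun u _ => Submodule.smul_mem _ _
    (Submodule.subset_span ⟨u, rfl⟩), ?_⟩
  rw [dist_eq_norm]
  exact hd.trans_lt (half_lt_self hη)

theorem potCLM_root (n : ℕ) : potCLM (n, []) = 0 := by
  ext φ
  simpa using pot_root φ n

theorem jt_reflexive :
    Function.Surjective (NormedSpace.inclusionInDoubleDual ℝ JT) := by
  intro Ψ
  set f : Node → ℝ := fun v => Ψ (potCLM v) with hf
  have hb : SqBound f (‖Ψ‖ ^ 2) := by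
    intro L hL
    set S := sumsq f L with hS
    have hS0 : 0 ≤ S :=
      List.sum_nonneg (by simp only [List.mem_map]; rintro _ ⟨y, -, rfl⟩; positivity)
    let T : DualJT :=
      (L.map fun s => val f s • (potCLM (s.n, s.l) - potCLM (s.n, s.l.drop s.k))).sum
    have hT : ∀ φ, T φ = (L.map fun s => val f s * val (pot φ) s).sum := by
      intro φ
      have : ∀ M : List Seg,
          ((M.map fun s => val f s • (potCLM (s.n, s.l) - potCLM (s.n, s.l.drop s.k))).sum :
            DualJT) φ = (M.map fun s => val f s * val (pot φ) s).sum := by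
        intro M
        induction M with
        | nil => simp
        | cons s M ih =>
          rw [List.map_cons, List.sum_cons, add_apply, ih, List.map_cons, List.sum_cons]
          simp [val]
      exact this L
    have hΨT : Ψ T = S := by
      rw [map_list_sum, List.map_map, hS, sumsq]
      congr 1
      refine List.map_congr_left fun s _ => ?_
      simp only [Function.comp, map_smul, map_sub, smul_eq_mul, sq]
      rfl
    have hTn : ‖T‖ ≤ Real.sqrt S := by
      refine ContinuousLinearMap.opNorm_le_bound _ (Real.sqrt_nonneg _) fun φ => ?_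
      rw [hT, Real.norm_eq_abs]
      apply abs_le_of_sq_le_sq ?_ (by positivity)
      refine (list_sum_mul_le L _ _).trans ?_
      rw [mul_pow, Real.sq_sqrt hS0]
      exact mul_le_mul_of_nonneg_left (sqBound_pot φ L hL) hS0
    have h1 : S ≤ ‖Ψ‖ * Real.sqrt S := by
      have := (Real.norm_eq_abs _).symm.le.trans (Ψ.le_opNorm T)
      rw [hΨT, abs_of_nonneg hS0] at this
      exact this.trans (mul_le_mul_of_nonneg_left hTn (norm_nonneg Ψ))
    exact le_sq_of_le_mul hS0 (norm_nonneg Ψ) h1 (Real.sq_sqrt hS0).le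
  refine ⟨mk f hb, ?_⟩
  have h0 : ∀ n, f (n, []) = 0 := by
    intro n; simp [hf, potCLM_root]
  have hedge : ∀ u : Node, u.2.length ≤ u.1 → edgeCLM u (mk f hb) = Ψ (edgeCLM u) := by
    intro u hu
    obtain ⟨n, l⟩ := u
    rw [edgeCLM_apply, pot_mk f hb n l hu (h0 n),
      pot_mk f hb n l.tail (by simp only [List.length_tail] at *; omega) (h0 n)]
    simp [hf, edgeCLM, map_sub]
  ext x
  rw [NormedSpace.dual_def]
  apply eq_of_abs_sub_eq_zero
  refine le_antisymm (le_of_forall_pos_le_add fun ζ hζ => ?_) (abs_nonneg _)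
  set M := ‖Ψ‖ + ‖mk f hb‖ + 1 with hM
  have hM0 : 0 < M := by positivity
  obtain ⟨Φ, hΦ, hd⟩ := exists_span_near x (div_pos hζ hM0)
  set x' := ∑ u ∈ Φ, x (unit u) • edgeCLM u with hx'
  have heq : x' (mk f hb) = Ψ x' := by
    simp only [hx', map_sum, map_smul, smul_eq_mul, ContinuousLinearMap.coe_sum',
      Finset.sum_apply, ContinuousLinearMap.coe_smul', Pi.smul_apply]
    exact Finset.sum_congr rfl fun u hu => by rw [hedge u (hΦ u hu).2.1]
  have h1 := (Real.norm_eq_abs _).symm.le.trans ((x - x').le_opNorm (mk f hb))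
  have h2 := (Real.norm_eq_abs _).symm.le.trans (Ψ.le_opNorm (x - x'))
  rw [sub_apply, heq] at h1
  rw [map_sub] at h2
  have h3 : |x (mk f hb) - Ψ x| ≤ ‖x - x'‖ * M := by
    have := abs_sub_le (x (mk f hb)) (Ψ x') (Ψ x)
    rw [abs_sub_comm (Ψ x') (Ψ x)] at this
    have : 0 ≤ ‖x - x'‖ := norm_nonneg _
    rw [hM]
    linarith
  have h4 := mul_le_mul_of_nonneg_right hd hM0.le
  rw [div_mul_cancel₀ _ hM0.ne'] at h4
  linarith

theorem dual_reflexive :
    Function.Surjective (NormedSpace.inclusionInDoubleDual ℝ DualJT) := by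
  intro Θ
  refine ⟨Θ.comp (NormedSpace.inclusionInDoubleDual ℝ JT), ?_⟩
  ext Ψ
  obtain ⟨φ, rfl⟩ := jt_reflexive Ψ
  rw [NormedSpace.dual_def, NormedSpace.dual_def]
  rfl

/-- Children in the tree are weakly null. -/
theorem tendsto_edge (n : ℕ) (l : List ℕ) (hl : l.length + 1 ≤ n) (ψ : StrongDual ℝ DualJT) :
    Tendsto (fun m : ℕ => ψ (edgeCLM (n, m :: l))) atTop (𝓝 0) := by
  classical
  obtain ⟨φ, rfl⟩ := jt_reflexive ψ
  simp only [NormedSpace.dual_def]
  have hs : Summable fun m : ℕ => edgeCLM (n, m :: l) φ ^ 2 := by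
    refine summable_of_sum_le (c := ‖φ‖ ^ 2) (fun m => sq_nonneg _) fun s => ?_
    have := sum_edge_sq_le φ (s.image fun m => ((n, m :: l) : Node)) (by
      intro u hu
      obtain ⟨m, -, rfl⟩ := Finset.mem_image.1 hu
      exact ⟨by simp, by simpa using hl⟩)
    rwa [Finset.sum_image (by intro a _ b _ h; simpa using h)] at this
  have h := (Real.continuous_sqrt.tendsto 0).comp hs.tendsto_atTop_zero
  rw [Real.sqrt_zero] at h
  rw [tendsto_zero_iff_abs_tendsto_zero]
  simpa only [Function.comp_def, Real.sqrt_sq_eq_abs] using h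

theorem norm_unit_le (u : Node) : ‖unit u‖ ≤ 1 :=
  norm_le_of_sqBound _ zero_le_one
    (by simpa using (sqBound_indFun u).congr (pot_unit u))

theorem one_le_norm_edgeCLM (u : Node) (hu : u.2 ≠ []) (hul : u.2.length ≤ u.1) :
    1 ≤ ‖edgeCLM u‖ := by
  have h := (edgeCLM u).le_opNorm (unit u)
  rw [edgeCLM_unit u u hu hul hu, if_pos rfl, norm_one] at h
  exact h.trans (mul_le_of_le_one_right (norm_nonneg (edgeCLM u)) (norm_unit_le u))

theorem one_le_norm_potCLM (n : ℕ) (l : List ℕ) (hl : l ≠ []) (hle : l.length ≤ n) :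
    1 ≤ ‖potCLM (n, l)‖ := by
  have hpos : 0 < l.length := List.length_pos_iff.2 hl
  have h := (potCLM (n, l)).le_opNorm (unit (n, l.drop (l.length - 1)))
  have e : potCLM (n, l) (unit (n, l.drop (l.length - 1))) = 1 := by
    rw [potCLM_apply, pot_unit _ n l hle, indFun,
      if_pos ⟨by simp only [ne_eq, List.drop_eq_nil_iff]; omega, rfl, List.drop_suffix _ _⟩]
  rw [e, norm_one] at h
  exact h.trans (mul_le_of_le_one_right (norm_nonneg (potCLM (n, l))) (norm_unit_le _))

theorem not_finiteDimensional_dual : ¬ FiniteDimensional ℝ DualJT := by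
  intro hfin
  have hli : LinearIndependent ℝ (fun m : ℕ => edgeCLM (1, [m])) := by
    classical
    rw [linearIndependent_iff']
    intro s g hg i hi
    have h := congrArg (fun T : DualJT => T (unit (1, [i]))) hg
    simp only [ContinuousLinearMap.coe_sum', Finset.sum_apply, zero_apply,
      ContinuousLinearMap.coe_smul', Pi.smul_apply, smul_eq_mul] at h
    rw [Finset.sum_eq_single i ?_ ?_, edgeCLM_unit _ _ (by simp) (by simp) (by simp), if_pos rfl,
      mul_one] at h
    · exact h
    · intro j _ hj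
      rw [edgeCLM_unit _ _ (by simp) (by simp) (by simp), if_neg (by simpa using hj), mul_zero]
    · exact fun h => absurd hi h
  have := hli.finite
  exact not_finite ℕ

end Vale.Agent.P069
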