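import Vale.Agent.P069.Dual
import Vale.Agent.P069.Moduli

/-!
No equivalent norm on the dual of `JT` is asymptotically uniformly convex.
-/

noncomputable section

open Filter Topology

namespace Vale.Agent.P069

theorem exists_step {X : Type} [NormedAddCommGroup X] [NormedSpace ℝ X] {N : Seminorm ℝ X}
    {a b δ : ℝ} (ha : 0 < a) (hb : 0 < b) (hab : ∀ x, a * ‖x‖ ≤ N x ∧ N x ≤ b * ‖x‖) (hδ : 0 < δ)
    (hmod : ∀ x, N x = 1 → ∃ F : Cof X, ∀ y ∈ F.1, N y = 1 →
      1 + δ ≤ N (x + (a / (2 * b)) • y))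
    (z : X) (hz1 : 1 ≤ ‖z‖) (hz2 : ‖z‖ ≤ 1) (e : ℕ → X) (he1 : ∀ m, 1 ≤ ‖e m‖)
    (he : ∀ ψ : StrongDual ℝ X, Tendsto (fun m => ψ (e m)) atTop (𝓝 0)) :
    ∃ m, (1 + δ / 2) * N z ≤ N (z + e m) := by
  have hza : a ≤ N z := (le_mul_of_one_le_right ha.le hz1).trans (hab z).1
  have hzb : N z ≤ b := (hab z).2.trans (mul_le_of_le_one_right hb.le hz2)
  have hz0 : 0 < N z := ha.trans_le hza
  obtain ⟨F, hF⟩ := hmod ((N z)⁻¹ • z) (by
    rw [map_smul_eq_mul, Real.norm_eq_abs, abs_inv, abs_of_pos hz0, inv_mul_cancel₀ hz0.ne'])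
  obtain ⟨y, hyF, hy⟩ := exists_approx_mem F e he
  set κ := min (a / 2) (δ / 2 * a) / b with hκdef
  have hκ : 0 < κ := by positivity
  obtain ⟨m, hm⟩ := (hy.eventually (eventually_lt_nhds hκ)).exists
  refine ⟨m, ?_⟩
  have hbκ : b * κ = min (a / 2) (δ / 2 * a) := mul_div_cancel₀ _ hb.ne'
  have h1 : N (e m - y m) ≤ b * κ := (hab _).2.trans (mul_le_mul_of_nonneg_left hm.le hb.le)
  have h2 : a / 2 ≤ N (y m) := by
    have h3 : a ≤ N (e m) := (le_mul_of_one_le_right ha.le (he1 m)).trans (hab _).1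
    have h4 := map_add_le_add N (e m - y m) (y m)
    rw [sub_add_cancel] at h4
    have h5 := min_le_left (a / 2) (δ / 2 * a)
    linarith
  have hy0 : 0 < N (y m) := (half_pos ha).trans_le h2
  have hu : N ((N (y m))⁻¹ • y m) = 1 := by
    rw [map_smul_eq_mul, Real.norm_eq_abs, abs_inv, abs_of_pos hy0, inv_mul_cancel₀ hy0.ne']
  have hs : a / (2 * b) ≤ N (y m) / N z := by
    rw [div_le_div_iff₀ (by positivity) hz0]
    calc a * N z ≤ a * b := mul_le_mul_of_nonneg_left hzb ha.le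
      _ = a / 2 * (2 * b) := by ring
      _ ≤ N (y m) * (2 * b) := mul_le_mul_of_nonneg_right h2 (by positivity)
  have h6 := le_of_convex_step (N := N) (x := (N z)⁻¹ • z) (y := (N (y m))⁻¹ • y m)
    (by rw [map_smul_eq_mul, Real.norm_eq_abs, abs_inv, abs_of_pos hz0, inv_mul_cancel₀ hz0.ne'])
    (by positivity : 0 < a / (2 * b)) hs hδ.le (hF _ (Submodule.smul_mem _ _ (hyF m)) hu)
  have e1 : (N (y m) / N z) • (N (y m))⁻¹ • y m = (N z)⁻¹ • y m := by
    rw [smul_smul]
    congr 1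
    field_simp
  rw [e1, ← smul_add, map_smul_eq_mul, Real.norm_eq_abs, abs_inv, abs_of_pos hz0,
    le_inv_mul_iff₀ hz0] at h6
  have h7 : N (z + y m) ≤ N (z + e m) + N (e m - y m) := by
    have := map_sub_le_add N (z + e m) (e m - y m)
    rwa [show z + e m - (e m - y m) = z + y m by abel] at this
  have h8 : δ / 2 * a ≤ δ / 2 * N z := mul_le_mul_of_nonneg_left hza (half_pos hδ).le
  have h9 := min_le_right (a / 2) (δ / 2 * a)
  linarith

theorem not_isAUC (N : Seminorm ℝ DualJT) (hN : IsEquivNorm N) : ¬ IsAUC N := by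
  intro hA
  obtain ⟨a, b, ha, hb, hab⟩ := id hN
  obtain ⟨δ, hδ, hmod⟩ := exists_of_modulus_pos not_finiteDimensional_dual hN hA
    (by positivity : 0 < a / (2 * b))
  obtain ⟨j, hj⟩ := pow_unbounded_of_one_lt (b / a) (by linarith : 1 < 1 + δ / 2)
  have key : ∀ i, i ≤ j → ∃ l : List ℕ, l.length = i + 1 ∧
      a * (1 + δ / 2) ^ i ≤ N (potCLM (j + 1, l)) := by
    intro i
    induction i with
    | zero =>
      intro _
      refine ⟨[0], rfl, ?_⟩
      rw [pow_zero, mul_one]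
      exact (le_mul_of_one_le_right ha.le
        (one_le_norm_potCLM (j + 1) [0] (by simp) (by simp))).trans (hab _).1
    | succ i ih =>
      intro hi
      obtain ⟨l, hl, hlN⟩ := ih (by omega)
      have hne : l ≠ [] := by intro h; simp [h] at hl
      obtain ⟨m, hm⟩ := exists_step ha hb hab hδ hmod (potCLM (j + 1, l))
        (one_le_norm_potCLM _ l hne (by omega)) (norm_potCLM_le _)
        (fun m => edgeCLM (j + 1, m :: l))
        (fun m => one_le_norm_edgeCLM _ (by simp) (by simp only [List.length_cons]; omega))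
        (tendsto_edge (j + 1) l (by omega))
      refine ⟨m :: l, by simp [hl], ?_⟩
      have e1 : potCLM (j + 1, l) + edgeCLM (j + 1, m :: l) = potCLM (j + 1, m :: l) :=
        add_sub_cancel _ _
      rw [e1] at hm
      calc a * (1 + δ / 2) ^ (i + 1) = (1 + δ / 2) * (a * (1 + δ / 2) ^ i) := by ring
        _ ≤ (1 + δ / 2) * N (potCLM (j + 1, l)) := mul_le_mul_of_nonneg_left hlN (by linarith)
        _ ≤ _ := hm
  obtain ⟨l, -, hl⟩ := key j le_rfl
  have h1 : N (potCLM (j + 1, l)) ≤ b :=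
    (hab _).2.trans (mul_le_of_le_one_right hb.le (norm_potCLM_le _))
  rw [div_lt_iff₀' ha] at hj
  linarith

end Vale.Agent.P069
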