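import Mathlib

/-!
The James-tree space over a forest of countably branching trees of finite heights,
described through potentials.
-/

noncomputable section

open scoped ENNReal

namespace Vale.Agent.P069

/-- A point `(n, l)` of the forest: `l` is a node at depth `l.length` of the `n`-th tree. -/
abbrev Node := ℕ × List ℕ

/-- A segment of the `n`-th tree: the `k` edges above the node `l`. -/
structure Seg where
  n : ℕ
  l : List ℕ
  k : ℕ
  hl : l.length ≤ n
  hk : k ≤ l.length

/-- The edge `u` (named by its lower node) lies in `s`. -/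
def Seg.edges (s : Seg) : Set Node := {u | ∃ i < s.k, u = (s.n, s.l.drop i)}

/-- The value of a potential on a segment. -/
def val (F : Node → ℝ) (s : Seg) : ℝ := F (s.n, s.l) - F (s.n, s.l.drop s.k)

/-- Pairwise edge-disjoint segments. -/
def Fam (L : List Seg) : Prop := L.Pairwise fun s t => Disjoint s.edges t.edges

/-- Sum of squares of the values. -/
def sumsq (F : Node → ℝ) (L : List Seg) : ℝ := (L.map fun s => val F s ^ 2).sum

/-- `F` has James-tree norm at most `√C`. -/
def SqBound (F : Node → ℝ) (C : ℝ) : Prop := ∀ L, Fam L → sumsq F L ≤ C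

/-- Weighted families of segments. -/
def Atom := {L : List (Seg × ℝ) // Fam (L.map Prod.fst) ∧ (L.map fun p => p.2 ^ 2).sum ≤ 1}

def Atom.eval (a : Atom) (F : Node → ℝ) : ℝ := (a.1.map fun p => p.2 * val F p.1).sum

/-- The atom of a single segment. -/
def single (s : Seg) : Atom := ⟨[(s, 1)], by simp [Fam]⟩

def rootSeg (n : ℕ) (l : List ℕ) (h : l.length ≤ n) : Seg := ⟨n, l, l.length, h, le_rfl⟩

instance : Inhabited Atom := ⟨⟨[], by simp [Fam]⟩⟩

abbrev LInf := lp (fun _ : Atom => ℝ) ∞

/-- Potential of a point read off from its values on root segments. -/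
def potFun (φ : LInf) (v : Node) : ℝ :=
  if h : v.2.length ≤ v.1 then φ (single (rootSeg v.1 v.2 h)) else 0

/-- The James-tree space, as a subspace of `ℓ∞` over atoms. -/
def jtSub : Submodule ℝ LInf where
  carrier := {φ | ∀ a : Atom, φ a = a.eval (potFun φ)}
  zero_mem' := by
    intro a
    have : potFun 0 = 0 := by ext v; simp [potFun]
    simp [this, Atom.eval, val]
  add_mem' := by
    intro φ ψ hφ hψ a
    have : potFun (φ + ψ) = fun v => potFun φ v + potFun ψ v := by
      ext v
      unfold potFun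
      split_ifs <;> simp
    rw [this, lp.coeFn_add, Pi.add_apply, hφ a, hψ a, Atom.eval, Atom.eval, Atom.eval,
      ← List.sum_map_add]
    congr 1
    apply List.map_congr_left
    intro p _
    simp only [val]
    ring
  smul_mem' := by
    intro c φ hφ a
    have : potFun (c • φ) = fun v => c * potFun φ v := by
      ext v
      unfold potFun
      split_ifs <;> simp
    rw [this, lp.coeFn_smul, Pi.smul_apply, hφ a, smul_eq_mul, Atom.eval, Atom.eval,
      ← List.sum_map_mul_left]
    congr 1
    apply List.map_congr_left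
    intro p _
    simp only [val]
    ring

theorem isClosed_jtSub : IsClosed (jtSub : Set LInf) := by
  have hev : ∀ a : Atom, Continuous fun φ : LInf => φ a := by
    intro a
    exact (lp.evalCLM ℝ (fun _ : Atom => ℝ) ∞ a).continuous
  have hpot : ∀ v, Continuous fun φ : LInf => potFun φ v := by
    intro v
    unfold potFun
    split_ifs with h
    · exact hev _
    · exact continuous_const
  have h : (jtSub : Set LInf) = ⋂ a : Atom, {φ | φ a = a.eval (potFun φ)} := by
    ext φ
    rw [Set.mem_iInter]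
    exact Iff.rfl
  rw [h]
  refine isClosed_iInter fun a => isClosed_eq (hev a) ?_
  unfold Atom.eval val
  exact continuous_list_sum _ fun p _ => continuous_const.mul ((hpot _).sub (hpot _))

/-- The James-tree space. -/
abbrev JT := ↥jtSub

instance : CompleteSpace JT := isClosed_jtSub.completeSpace_coe

instance instNormedAddCommGroupJT : NormedAddCommGroup JT := inferInstance

instance instNormedSpaceJT : NormedSpace ℝ JT := inferInstance

/-- The potential of an element of `JT`. -/
def pot (φ : JT) (v : Node) : ℝ := potFun φ.1 v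

theorem pot_add (φ ψ : JT) (v : Node) : pot (φ + ψ) v = pot φ v + pot ψ v := by
  unfold pot potFun
  split_ifs <;> simp

theorem pot_smul (c : ℝ) (φ : JT) (v : Node) : pot (c • φ) v = c * pot φ v := by
  unfold pot potFun
  split_ifs <;> simp

theorem pot_zero (v : Node) : pot 0 v = 0 := by
  unfold pot potFun
  split_ifs <;> simp

theorem pot_root (φ : JT) (n : ℕ) : pot φ (n, []) = 0 := by
  have h := φ.2 (single (rootSeg n [] (Nat.zero_le _)))
  simp [Atom.eval, single, rootSeg, val] at h
  simpa [pot, potFun, single, rootSeg] using h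

theorem val_add (F G : Node → ℝ) (s : Seg) : val (fun v => F v + G v) s = val F s + val G s := by
  simp only [val]; ring

theorem val_smul (c : ℝ) (F : Node → ℝ) (s : Seg) : val (fun v => c * F v) s = c * val F s := by
  simp only [val]; ring

theorem list_sum_mul_le {α : Type} (L : List α) (f g : α → ℝ) :
    (L.map fun x => f x * g x).sum ^ 2 ≤
      (L.map fun x => f x ^ 2).sum * (L.map fun x => g x ^ 2).sum := by
  induction L with
  | nil => simp
  | cons x L ih =>
    simp only [List.map_cons, List.sum_cons]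
    set A := (L.map fun x => f x * g x).sum
    set B := (L.map fun x => f x ^ 2).sum
    set D := (L.map fun x => g x ^ 2).sum
    have hB : 0 ≤ B := List.sum_nonneg (by simp only [List.mem_map]; rintro _ ⟨y, -, rfl⟩; positivity)
    have hD : 0 ≤ D := List.sum_nonneg (by simp only [List.mem_map]; rintro _ ⟨y, -, rfl⟩; positivity)
    have key : 2 * (f x * g x) * A ≤ f x ^ 2 * D + B * g x ^ 2 := by
      by_contra hc
      push Not at hc
      have h0 : 0 ≤ f x ^ 2 * D + B * g x ^ 2 := by positivity
      have := mul_self_lt_mul_self h0 hc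
      nlinarith [sq_nonneg (f x ^ 2 * D - B * g x ^ 2),
        mul_le_mul_of_nonneg_left ih (sq_nonneg (f x * g x))]
    nlinarith

theorem abs_eval_le {F : Node → ℝ} {C : ℝ} (hC : 0 ≤ C) (h : SqBound F (C ^ 2)) (a : Atom) :
    |a.eval F| ≤ C := by
  have h1 := list_sum_mul_le a.1 (fun p => p.2) (fun p => val F p.1)
  have h2 : (a.1.map fun p => val F p.1 ^ 2).sum ≤ C ^ 2 := by
    have := h _ a.2.1
    simpa [sumsq, List.map_map, Function.comp_def] using this
  have h3 : 0 ≤ (a.1.map fun p => val F p.1 ^ 2).sum :=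
    List.sum_nonneg (by simp only [List.mem_map]; rintro _ ⟨y, -, rfl⟩; positivity)
  apply abs_le_of_sq_le_sq ?_ hC
  calc a.eval F ^ 2 ≤ _ := h1
    _ ≤ 1 * C ^ 2 := mul_le_mul a.2.2 h2 h3 zero_le_one
    _ = _ := one_mul _

theorem SqBound.nonneg {F : Node → ℝ} {C : ℝ} (h : SqBound F C) : 0 ≤ C := by
  simpa [sumsq, Fam] using h [] (by simp [Fam])

theorem SqBound.sqrt {F : Node → ℝ} {C : ℝ} (h : SqBound F C) :
    SqBound F (Real.sqrt C ^ 2) := by
  rwa [Real.sq_sqrt h.nonneg]

/-- Evaluation of a potential on all atoms. -/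
def ofFun (F : Node → ℝ) {C : ℝ} (h : SqBound F C) : LInf :=
  ⟨fun a => a.eval F, memℓp_infty ⟨Real.sqrt C, by
    rintro _ ⟨a, rfl⟩
    exact abs_eval_le (Real.sqrt_nonneg _) h.sqrt a⟩⟩

theorem potFun_ofFun (F : Node → ℝ) {C : ℝ} (h : SqBound F C) (n : ℕ) (l : List ℕ)
    (hl : l.length ≤ n) : potFun (ofFun F h) (n, l) = F (n, l) - F (n, []) := by
  simp [potFun, hl, ofFun, Atom.eval, single, rootSeg, val]

/-- The element of `JT` with a given potential. -/
def mk (F : Node → ℝ) {C : ℝ} (h : SqBound F C) : JT :=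
  ⟨ofFun F h, fun a => by
    show a.eval F = a.eval (potFun (ofFun F h))
    unfold Atom.eval
    congr 1
    apply List.map_congr_left
    intro p _
    unfold val
    rw [potFun_ofFun F h _ _ p.1.hl,
      potFun_ofFun F h _ _ (by have := p.1.hl; rw [List.length_drop]; omega)]
    ring⟩

theorem pot_mk (F : Node → ℝ) {C : ℝ} (h : SqBound F C) (n : ℕ) (l : List ℕ)
    (hl : l.length ≤ n) (h0 : F (n, []) = 0) : pot (mk F h) (n, l) = F (n, l) := by
  simp [pot, mk, potFun_ofFun F h n l hl, h0]

theorem val_pot_mk (F : Node → ℝ) {C : ℝ} (h : SqBound F C) (s : Seg) :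
    val (pot (mk F h)) s = val F s := by
  simp only [val, pot, mk]
  rw [potFun_ofFun F h _ _ s.hl, potFun_ofFun F h _ _ (by have := s.hl; rw [List.length_drop]; omega)]
  ring

theorem norm_le_of_sqBound (φ : JT) {C : ℝ} (hC : 0 ≤ C) (h : SqBound (pot φ) (C ^ 2)) :
    ‖φ‖ ≤ C := by
  refine lp.norm_le_of_forall_le (f := φ.1) hC fun a => ?_
  show |φ.1 a| ≤ C
  rw [φ.2 a]
  exact abs_eval_le hC h a

theorem norm_sq_le_of_sqBound (φ : JT) {C : ℝ} (h : SqBound (pot φ) C) : ‖φ‖ ^ 2 ≤ C := by
  have := norm_le_of_sqBound φ (Real.sqrt_nonneg C) h.sqrt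
  calc ‖φ‖ ^ 2 ≤ Real.sqrt C ^ 2 := by gcongr
    _ = C := Real.sq_sqrt h.nonneg

theorem abs_eval_pot_le (φ : JT) (a : Atom) : |a.eval (pot φ)| ≤ ‖φ‖ := by
  have := lp.norm_apply_le_norm (E := fun _ : Atom => ℝ) ENNReal.top_ne_zero φ.1 a
  rw [φ.2 a, Real.norm_eq_abs] at this
  exact this

theorem sqBound_pot (φ : JT) : SqBound (pot φ) (‖φ‖ ^ 2) := by
  intro L hL
  set S := sumsq (pot φ) L with hS
  have hS0 : 0 ≤ S := List.sum_nonneg (by simp only [List.mem_map]; rintro _ ⟨y, -, rfl⟩; positivity)
  rcases hS0.lt_or_eq with hpos | h0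
  · let c : Seg → ℝ := fun s => val (pot φ) s / Real.sqrt S
    have hc : (L.map fun s => c s ^ 2).sum ≤ 1 := by
      have : (L.map fun s => c s ^ 2).sum = S / S := by
        rw [div_eq_mul_inv S S]
        conv_rhs => rw [hS, sumsq, ← List.sum_map_mul_right]
        congr 1
        apply List.map_congr_left
        intro s _
        simp only [c, div_pow]
        rw [Real.sq_sqrt hS0]
        rfl
      rw [this, div_self hpos.ne']
    let a : Atom := ⟨L.map fun s => (s, c s), by
      constructor
      · simpa [List.map_map, Function.comp_def] using hL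
      · simpa [List.map_map, Function.comp_def] using hc⟩
    have ha : a.eval (pot φ) = Real.sqrt S := by
      have : a.eval (pot φ) = S / Real.sqrt S := by
        rw [div_eq_mul_inv]
        conv_rhs => rw [hS, sumsq, ← List.sum_map_mul_right]
        simp only [Atom.eval, a, List.map_map]
        congr 1
        apply List.map_congr_left
        intro s _
        simp only [Function.comp, c]
        rw [hS, sumsq, div_eq_mul_inv]
        ring
      rw [this, Real.div_sqrt]
    have := abs_eval_pot_le φ a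
    rw [ha, abs_of_nonneg (Real.sqrt_nonneg _)] at this
    calc S = Real.sqrt S ^ 2 := (Real.sq_sqrt hS0).symm
      _ ≤ ‖φ‖ ^ 2 := by gcongr
  · rw [← h0]; positivity

theorem abs_val_le (φ : JT) (s : Seg) : |val (pot φ) s| ≤ ‖φ‖ := by
  simpa [Atom.eval, single] using abs_eval_pot_le φ (single s)

theorem abs_pot_le (φ : JT) (v : Node) : |pot φ v| ≤ ‖φ‖ := by
  by_cases h : v.2.length ≤ v.1
  · have := abs_val_le φ (rootSeg v.1 v.2 h)
    simpa [val, rootSeg, pot_root] using this
  · simp [pot, potFun, h]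

theorem jt_ext {φ ψ : JT} (h : ∀ n l, l.length ≤ n → pot φ (n, l) = pot ψ (n, l)) : φ = ψ := by
  apply Subtype.ext
  apply lp.ext
  funext a
  rw [φ.2 a, ψ.2 a]
  unfold Atom.eval
  congr 1
  apply List.map_congr_left
  intro p _
  unfold val
  have h1 := h p.1.n p.1.l p.1.hl
  have h2 := h p.1.n (p.1.l.drop p.1.k) (by have := p.1.hl; rw [List.length_drop]; omega)
  unfold pot at h1 h2
  rw [h1, h2]

/-- The continuous functional `φ ↦ pot φ v`. -/
def potCLM (v : Node) : JT →L[ℝ] ℝ :=
  LinearMap.mkContinuous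
    { toFun := fun φ => pot φ v
      map_add' := fun φ ψ => pot_add φ ψ v
      map_smul' := fun c φ => by simpa using pot_smul c φ v } 1
    (fun φ => by simpa using abs_pot_le φ v)

@[simp] theorem potCLM_apply (v : Node) (φ : JT) : potCLM v φ = pot φ v := rfl

theorem norm_potCLM_le (v : Node) : ‖potCLM v‖ ≤ 1 :=
  LinearMap.mkContinuous_norm_le _ zero_le_one _

/-- Part `i ≤ r < j` of a segment. -/
def Seg.sub (s : Seg) (i j : ℕ) (h : j ≤ s.k) : Seg :=
  ⟨s.n, s.l.drop i, j - i,
    by have := s.hl; rw [List.length_drop]; omega,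
    by have := s.hk; rw [List.length_drop]; omega⟩

theorem val_sub (F : Node → ℝ) (s : Seg) (i j : ℕ) (h : j ≤ s.k) (hij : i ≤ j) :
    val F (s.sub i j h) = F (s.n, s.l.drop i) - F (s.n, s.l.drop j) := by
  simp [val, Seg.sub, List.drop_drop, Nat.add_sub_cancel' hij]

theorem mem_sub_edges (s : Seg) (i j : ℕ) (h : j ≤ s.k) (u : Node) :
    u ∈ (s.sub i j h).edges ↔ ∃ r, i ≤ r ∧ r < j ∧ u = (s.n, s.l.drop r) := by
  simp only [Seg.edges, Seg.sub, Set.mem_ofPred_eq, List.drop_drop]
  constructor
  · rintro ⟨r, hr, rfl⟩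
    exact ⟨i + r, by omega, by omega, rfl⟩
  · rintro ⟨r, h1, h2, rfl⟩
    exact ⟨r - i, by omega, by rw [Nat.add_sub_cancel' h1]⟩

theorem sub_edges_subset (s : Seg) (i j : ℕ) (h : j ≤ s.k) : (s.sub i j h).edges ⊆ s.edges := by
  intro u hu
  obtain ⟨r, -, hr, rfl⟩ := (mem_sub_edges s i j h u).1 hu
  exact ⟨r, by omega, rfl⟩

theorem drop_inj_of_le {l : List ℕ} {i j : ℕ} (hi : i ≤ l.length) (hj : j ≤ l.length)
    (h : l.drop i = l.drop j) : i = j := by
  have := congrArg List.length h
  simp only [List.length_drop] at this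
  omega

theorem sub_disjoint (s : Seg) (i j k : ℕ) (hj : j ≤ s.k) (hk : k ≤ s.k) :
    Disjoint (s.sub i j hj).edges (s.sub j k hk).edges := by
  rw [Set.disjoint_left]
  intro u hu hu'
  obtain ⟨r, -, hr, rfl⟩ := (mem_sub_edges s i j hj u).1 hu
  obtain ⟨r', hr1, hr2, he⟩ := (mem_sub_edges s j k hk _).1 hu'
  have := s.hk
  have := drop_inj_of_le (by omega) (by omega) (congrArg Prod.snd he)
  omega

theorem Fam.flatMap {L : List Seg} (hL : Fam L) (r : Seg → List Seg)
    (hin : ∀ s ∈ L, Fam (r s)) (hsub : ∀ s ∈ L, ∀ t ∈ r s, t.edges ⊆ s.edges) :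
    Fam (L.flatMap r) := by
  unfold Fam at *
  rw [List.pairwise_flatMap]
  refine ⟨hin, hL.imp_of_mem ?_⟩
  intro a b ha hb hab x hx y hy
  exact hab.mono (hsub a ha x hx) (hsub b hb y hy)

theorem sumsq_flatMap (F : Node → ℝ) (L : List Seg) (r : Seg → List Seg) :
    sumsq F (L.flatMap r) = (L.map fun s => sumsq F (r s)).sum := by
  induction L with
  | nil => simp [sumsq]
  | cons s L ih =>
    simp only [sumsq] at ih ⊢
    simp [List.flatMap_cons, ih]

end Vale.Agent.P069
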