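import Vale.Agent.P069.Space

/-!
Finite downward closed sets of nodes, and the key estimate for potentials glued
from a part on such a set and a small part outside it.
-/

noncomputable section

namespace Vale.Agent.P069

/-- A finite set of edges which is closed upwards towards the roots. -/
def Downset (Φ : Finset Node) : Prop :=
  ∀ u ∈ Φ, u.2 ≠ [] ∧ u.2.length ≤ u.1 ∧ (u.2.tail = [] ∨ (u.1, u.2.tail) ∈ Φ)

def InB (Φ : Finset Node) (n : ℕ) (l : List ℕ) : Prop := l = [] ∨ (n, l) ∈ Φ

theorem InB.drop {Φ : Finset Node} (hΦ : Downset Φ) {n : ℕ} {l : List ℕ} (h : InB Φ n l)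
    (i : ℕ) : InB Φ n (l.drop i) := by
  induction i with
  | zero => simpa using h
  | succ i ih =>
    have e : l.drop (i + 1) = (l.drop i).tail := by rw [List.tail_drop]
    rw [e]
    rcases ih with h0 | h1
    · exact Or.inl (by rw [h0]; rfl)
    · exact (hΦ _ h1).2.2

open Classical in
def dep (Φ : Finset Node) (n : ℕ) (l : List ℕ) : ℕ :=
  Nat.find (p := fun i => InB Φ n (l.drop i)) ⟨l.length, Or.inl List.drop_length⟩

open Classical in
theorem dep_spec (Φ : Finset Node) (n : ℕ) (l : List ℕ) : InB Φ n (l.drop (dep Φ n l)) :=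
  Nat.find_spec (p := fun i => InB Φ n (l.drop i)) _

open Classical in
theorem dep_le_of (Φ : Finset Node) {n : ℕ} {l : List ℕ} {i : ℕ} (h : InB Φ n (l.drop i)) :
    dep Φ n l ≤ i :=
  Nat.find_min' (p := fun i => InB Φ n (l.drop i)) _ h

theorem dep_le_length (Φ : Finset Node) (n : ℕ) (l : List ℕ) : dep Φ n l ≤ l.length :=
  dep_le_of Φ (Or.inl List.drop_length)

/-- The lowest point above a node that is a root or lies in `Φ`. -/
def anc (Φ : Finset Node) (v : Node) : Node := (v.1, v.2.drop (dep Φ v.1 v.2))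

theorem dep_drop (Φ : Finset Node) (n : ℕ) (l : List ℕ) (k : ℕ) (hk : k ≤ dep Φ n l) :
    dep Φ n (l.drop k) = dep Φ n l - k := by
  apply le_antisymm
  · apply dep_le_of
    rw [List.drop_drop, Nat.add_sub_cancel' hk]
    exact dep_spec Φ n l
  · have h := dep_spec Φ n (l.drop k)
    rw [List.drop_drop] at h
    have := dep_le_of Φ h
    omega

theorem anc_drop (Φ : Finset Node) (n : ℕ) (l : List ℕ) (k : ℕ) (hk : k ≤ dep Φ n l) :
    anc Φ (n, l.drop k) = anc Φ (n, l) := by
  simp only [anc, dep_drop Φ n l k hk, List.drop_drop, Nat.add_sub_cancel' hk]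

theorem anc_of_inB {Φ : Finset Node} {n : ℕ} {l : List ℕ} (h : InB Φ n l) :
    anc Φ (n, l) = (n, l) := by
  have : dep Φ n l = 0 := Nat.le_zero.1 (dep_le_of Φ (by simpa using h))
  simp [anc, this]

theorem anc_drop_ge {Φ : Finset Node} (hΦ : Downset Φ) (n : ℕ) (l : List ℕ) (k : ℕ)
    (hk : dep Φ n l ≤ k) : anc Φ (n, l.drop k) = (n, l.drop k) := by
  apply anc_of_inB
  have := (dep_spec Φ n l).drop hΦ (k - dep Φ n l)
  rwa [List.drop_drop, Nat.add_sub_cancel' hk] at this

theorem anc_length (Φ : Finset Node) (n : ℕ) (l : List ℕ) (h : l.length ≤ n) :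
    (anc Φ (n, l)).2.length ≤ n := by
  simp only [anc, List.length_drop]; omega

/-- Every finite set of non-root points is contained in a downward closed one. -/
theorem exists_downset (W : Finset Node) (hW : ∀ u ∈ W, u.2 ≠ [] ∧ u.2.length ≤ u.1) :
    ∃ Φ : Finset Node, Downset Φ ∧ W ⊆ Φ := by
  classical
  refine ⟨W.biUnion fun u => (Finset.range u.2.length).image fun i => (u.1, u.2.drop i), ?_, ?_⟩
  · intro v hv
    simp only [Finset.mem_biUnion, Finset.mem_image, Finset.mem_range] at hv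
    obtain ⟨u, hu, i, hi, rfl⟩ := hv
    refine ⟨?_, ?_, ?_⟩
    · simp [List.drop_eq_nil_iff]; omega
    · have := (hW u hu).2
      simp only [List.length_drop]; omega
    · by_cases h : i + 1 < u.2.length
      · refine Or.inr ?_
        simp only [Finset.mem_biUnion, Finset.mem_image, Finset.mem_range]
        exact ⟨u, hu, i + 1, h, by rw [List.tail_drop]⟩
      · refine Or.inl ?_
        rw [List.tail_drop, List.drop_eq_nil_iff]
        omega
  · intro u hu
    simp only [Finset.mem_biUnion, Finset.mem_image, Finset.mem_range]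
    exact ⟨u, hu, 0, List.length_pos_iff.2 (hW u hu).1, by simp⟩

/-- The first difference of absolute value above `θ` above `p` is positive. -/
def PosExit (F : Node → ℝ) (θ : ℝ) (p : Node) : Prop :=
  ∃ i, θ < F p - F (p.1, p.2.drop i) ∧ ∀ j < i, |F p - F (p.1, p.2.drop j)| ≤ θ

/-- The first difference of absolute value above `θ` above `p` is negative. -/
def NegExit (F : Node → ℝ) (θ : ℝ) (p : Node) : Prop :=
  ∃ i, F p - F (p.1, p.2.drop i) < -θ ∧ ∀ j < i, |F p - F (p.1, p.2.drop j)| ≤ θ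

theorem not_neg_of_posExit {F : Node → ℝ} {θ : ℝ} (hθ : 0 ≤ θ) {p : Node} (h : PosExit F θ p) :
    ¬ NegExit F θ p := by
  rintro ⟨j, hj, hj'⟩
  obtain ⟨i, hi, hi'⟩ := h
  rcases lt_trichotomy i j with hc | hc | hc
  · exact absurd (le_abs_self _) (not_le.2 ((hj' i hc).trans_lt hi))
  · subst hc; linarith
  · exact absurd (neg_le_abs _) (not_le.2 ((hi' j hc).trans_lt (by linarith)))

/-- Estimate on one segment which crosses the boundary of `Φ`. -/
theorem crossing_bound {Φ : Finset Node} (hΦ : Downset Φ) (F G' : Node → ℝ) {ε W : ℝ}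
    (hε : 0 ≤ ε) (s : Seg) (hd : dep Φ s.n s.l < s.k)
    (hzero : G' (s.n, s.l.drop s.k) = 0)
    (habs : |G' (s.n, s.l)| ≤ W)
    (hpos : PosExit F (ε * W) (anc Φ (s.n, s.l)) → G' (s.n, s.l) ≤ 0)
    (hneg : NegExit F (ε * W) (anc Φ (s.n, s.l)) → 0 ≤ G' (s.n, s.l)) :
    ∃ r : List Seg, Fam r ∧ (∀ t ∈ r, t.edges ⊆ s.edges) ∧
      val (fun v => F (anc Φ v) + ε * G' v) s ^ 2 ≤ sumsq F r + 3 * ε ^ 2 * W ^ 2 := by
  classical
  set d := dep Φ s.n s.l with hddef
  set h := G' (s.n, s.l) with hhdef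
  set b := F (s.n, s.l.drop d) - F (s.n, s.l.drop s.k) with hb
  have hv : val (fun v => F (anc Φ v) + ε * G' v) s = b + ε * h := by
    simp only [val, anc_drop_ge hΦ s.n s.l s.k hd.le, hzero, hb, hhdef]
    simp only [anc, ← hddef]
    ring
  have hW : 0 ≤ W := (abs_nonneg _).trans habs
  have hh2 : (ε * h) ^ 2 ≤ ε ^ 2 * W ^ 2 := by
    have : h ^ 2 ≤ W ^ 2 := sq_le_sq.2 (by rwa [abs_of_nonneg hW])
    nlinarith [mul_le_mul_of_nonneg_left this (sq_nonneg ε)]
  have honeval : sumsq F [s.sub d s.k le_rfl] = b ^ 2 := by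
    simp [sumsq, val_sub F s d s.k le_rfl hd.le, hb]
  have hone : ∀ t ∈ [s.sub d s.k le_rfl], t.edges ⊆ s.edges := by
    simp only [List.mem_singleton, forall_eq]
    exact sub_edges_subset _ _ _ _
  by_cases hbh : b * h ≤ 0
  · refine ⟨[s.sub d s.k le_rfl], by simp [Fam], hone, ?_⟩
    rw [hv, honeval]
    nlinarith [mul_nonpos_of_nonneg_of_nonpos hε hbh, sq_nonneg (ε * W)]
  by_cases hsmall : |b| ≤ ε * W
  · refine ⟨[s.sub d s.k le_rfl], by simp [Fam], hone, ?_⟩
    rw [hv, honeval]
    have h1 : |b * (ε * h)| ≤ (ε * W) * (ε * W) := by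
      rw [abs_mul, abs_mul, abs_of_nonneg hε]
      exact mul_le_mul hsmall (by gcongr) (by positivity) (by positivity)
    nlinarith [le_abs_self (b * (ε * h))]
  push Not at hbh hsmall
  set θ := ε * W with hθdef
  let D : ℕ → ℝ := fun i => F (s.n, s.l.drop d) - F (s.n, s.l.drop (d + i))
  have hDb : D (s.k - d) = b := by
    simp only [D, hb, Nat.add_sub_cancel' hd.le]
  have hex : ∃ i, θ < |D i| := ⟨s.k - d, by rw [hDb]; exact hsmall⟩
  set i := Nat.find hex with hidef
  have hi : θ < |D i| := Nat.find_spec hex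
  have hik : i ≤ s.k - d := Nat.find_min' hex (by rw [hDb]; exact hsmall)
  have hbefore : ∀ j < i, |D j| ≤ θ := fun j hj => le_of_not_gt (Nat.find_min hex hj)
  have hancD : ∀ j, F (anc Φ (s.n, s.l)) -
      F ((anc Φ (s.n, s.l)).1, (anc Φ (s.n, s.l)).2.drop j) = D j := by
    intro j
    simp only [anc, D, List.drop_drop, ← hddef]
  have hopp : D i * b < 0 := by
    rcases lt_or_ge 0 (D i) with hp | hp
    · have : h ≤ 0 := hpos ⟨i, by rw [hancD]; rwa [abs_of_pos hp] at hi,
        fun j hj => by rw [hancD]; exact hbefore j hj⟩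
      have hb0 : b < 0 := by
        rcases lt_or_ge b 0 with hb' | hb'
        · exact hb'
        · nlinarith
      nlinarith
    · have h1 : D i < -θ := by rw [abs_of_nonpos hp] at hi; linarith
      have : 0 ≤ h := hneg ⟨i, by rw [hancD]; exact h1,
        fun j hj => by rw [hancD]; exact hbefore j hj⟩
      have hb0 : 0 < b := by
        rcases lt_or_ge 0 b with hb' | hb'
        · exact hb'
        · nlinarith
      have : D i < 0 := by
        have : 0 ≤ θ := mul_nonneg hε hW
        linarith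
      nlinarith
  refine ⟨[s.sub d (d + i) (by omega), s.sub (d + i) s.k le_rfl], ?_, ?_, ?_⟩
  · simp only [Fam, List.pairwise_cons, List.mem_singleton, forall_eq, List.not_mem_nil,
      false_imp_iff, implies_true, List.Pairwise.nil, and_true]
    exact sub_disjoint s d (d + i) s.k (by omega) le_rfl
  · simp only [List.mem_cons, List.not_mem_nil, or_false, forall_eq_or_imp, forall_eq]
    exact ⟨sub_edges_subset _ _ _ _, sub_edges_subset _ _ _ _⟩
  · have h2 : F (s.n, s.l.drop (d + i)) - F (s.n, s.l.drop s.k) = b - D i := by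
      simp only [D, hb]; ring
    have h3 : sumsq F [s.sub d (d + i) (by omega), s.sub (d + i) s.k le_rfl] =
        D i ^ 2 + (b - D i) ^ 2 := by
      simp [sumsq, val_sub F s d (d + i) (by omega) (by omega),
        val_sub F s (d + i) s.k le_rfl (by omega), h2, D]
    rw [hv, h3]
    have h4 : |b * (ε * h)| ≤ |b| * |D i| := by
      rw [abs_mul b]
      refine mul_le_mul_of_nonneg_left ?_ (abs_nonneg b)
      rw [abs_mul, abs_of_nonneg hε]
      exact le_trans (mul_le_mul_of_nonneg_left habs hε) hi.le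
    have h5 : |b| * |D i| = -(D i * b) := by
      rw [← abs_mul, mul_comm, abs_of_neg hopp]
    nlinarith [le_abs_self (b * (ε * h)), sq_nonneg (D i), sq_nonneg (ε * W)]

/-- The key estimate: glue `F` on `Φ` with `ε • G'` outside. -/
theorem sqBound_glue {Φ : Finset Node} (hΦ : Downset Φ) {F G G' : Node → ℝ} {CF CG ε : ℝ}
    (hF : SqBound F CF) (hG : SqBound G CG) (hε : 0 ≤ ε) (w : Node → ℝ)
    (hw : ∀ n l, l.length ≤ n → |G (n, l) - G (anc Φ (n, l))| ≤ w (anc Φ (n, l)))
    (hwit : ∀ n l, l.length ≤ n → ∃ l' : List ℕ, l'.length ≤ n ∧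
      anc Φ (n, l') = anc Φ (n, l) ∧ w (anc Φ (n, l)) ≤ 2 * |G (n, l') - G (anc Φ (n, l))|)
    (habs : ∀ n l, l.length ≤ n → |G' (n, l)| ≤ |G (n, l) - G (anc Φ (n, l))|)
    (hlip : ∀ n l l', anc Φ (n, l) = anc Φ (n, l') →
      |G' (n, l) - G' (n, l')| ≤ |G (n, l) - G (n, l')|)
    (hpos : ∀ n l, PosExit F (ε * w (anc Φ (n, l))) (anc Φ (n, l)) → G' (n, l) ≤ 0)
    (hneg : ∀ n l, NegExit F (ε * w (anc Φ (n, l))) (anc Φ (n, l)) → 0 ≤ G' (n, l)) :
    SqBound (fun v => F (anc Φ v) + ε * G' v) (CF + 13 * ε ^ 2 * CG) := by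
  classical
  intro L hL
  set H := fun v => F (anc Φ v) + ε * G' v with hH
  choose l' hl'n hl'anc hl'w using fun s : Seg => hwit s.n s.l s.hl
  let wseg : Seg → Seg := fun s =>
    ⟨s.n, l' s, dep Φ s.n (l' s), hl'n s, dep_le_length _ _ _⟩
  let cr : Seg → Prop := fun s => dep Φ s.n s.l < s.k
  have key : ∀ s : Seg, ∃ r : List Seg, Fam r ∧ (∀ t ∈ r, t.edges ⊆ s.edges) ∧
      val H s ^ 2 ≤ sumsq F r + ε ^ 2 * sumsq G (if cr s then [] else [s]) +
        12 * ε ^ 2 * sumsq G (if cr s then [wseg s] else []) := by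
    intro s
    by_cases hd : cr s
    · have hz : G' (s.n, s.l.drop s.k) = 0 := by
        have := habs s.n (s.l.drop s.k) (by have := s.hl; rw [List.length_drop]; omega)
        rwa [anc_drop_ge hΦ s.n s.l s.k (le_of_lt hd), sub_self, abs_zero, abs_nonpos_iff] at this
      obtain ⟨r, hr1, hr2, hr3⟩ := crossing_bound hΦ F G' hε s hd hz
        (W := w (anc Φ (s.n, s.l))) ((habs _ _ s.hl).trans (hw _ _ s.hl)) (hpos _ _) (hneg _ _)
      refine ⟨r, hr1, hr2, hr3.trans ?_⟩
      rw [if_pos hd, if_pos hd]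
      have hval : val G (wseg s) = G (s.n, l' s) - G (anc Φ (s.n, s.l)) := by
        rw [← hl'anc s]; rfl
      have hw0 : 0 ≤ w (anc Φ (s.n, s.l)) := (abs_nonneg _).trans (hw _ _ s.hl)
      have : w (anc Φ (s.n, s.l)) ^ 2 ≤ 4 * val G (wseg s) ^ 2 := by
        rw [hval]
        nlinarith [hl'w s, sq_abs (G (s.n, l' s) - G (anc Φ (s.n, s.l)))]
      simp only [sumsq, List.map_nil, List.sum_nil, List.map_cons, List.sum_cons]
      nlinarith [sq_nonneg ε, mul_le_mul_of_nonneg_left this (sq_nonneg ε)]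
    · refine ⟨[], by simp [Fam], by simp, ?_⟩
      rw [if_neg hd, if_neg hd]
      have hd' : s.k ≤ dep Φ s.n s.l := le_of_not_gt hd
      have he := anc_drop Φ s.n s.l s.k hd'
      have hval : val H s = ε * (G' (s.n, s.l) - G' (s.n, s.l.drop s.k)) := by
        simp only [val, hH, he]; ring
      have := sq_le_sq.2 (hlip s.n s.l (s.l.drop s.k) he.symm)
      rw [hval]
      simp only [sumsq, List.map_nil, List.sum_nil, List.map_cons, List.sum_cons, val]
      nlinarith [mul_le_mul_of_nonneg_left this (sq_nonneg ε)]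
  choose r hr1 hr2 hr3 using key
  have f1 : Fam (L.flatMap r) := hL.flatMap r (fun s _ => hr1 s) (fun s _ => hr2 s)
  have f2 : Fam (L.flatMap fun s => if cr s then [] else [s]) := by
    refine hL.flatMap _ (fun s _ => ?_) (fun s _ => ?_) <;> split_ifs <;> simp [Fam]
  have hwmem : ∀ (s : Seg) (u : Node), u ∈ (wseg s).edges → anc Φ u = anc Φ (s.n, s.l) := by
    intro s u hu
    obtain ⟨i, hi, rfl⟩ := hu
    rw [← hl'anc s]
    exact anc_drop Φ s.n (l' s) i (le_of_lt hi)
  have hpmem : ∀ s : Seg, cr s → anc Φ (s.n, s.l) ∈ s.edges := fun s hs =>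
    ⟨dep Φ s.n s.l, hs, rfl⟩
  have f3 : Fam (L.flatMap fun s => if cr s then [wseg s] else []) := by
    unfold Fam at hL ⊢
    rw [List.pairwise_flatMap]
    refine ⟨fun s _ => by split_ifs <;> simp, hL.imp ?_⟩
    intro a b hab x hx y hy
    split_ifs at hx with ha
    · split_ifs at hy with hb
      · simp only [List.mem_singleton] at hx hy
        subst hx hy
        rw [Set.disjoint_left]
        intro u hu hu'
        apply Set.disjoint_left.1 hab (hpmem a ha)
        rw [← hwmem a u hu, hwmem b u hu']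
        exact hpmem b hb
      · simp at hy
    · simp at hx
  have hsum : sumsq H L ≤ (L.map fun s => sumsq F (r s) +
      ε ^ 2 * sumsq G (if cr s then [] else [s]) +
      12 * ε ^ 2 * sumsq G (if cr s then [wseg s] else [])).sum :=
    List.sum_le_sum fun s _ => hr3 s
  rw [List.sum_map_add, List.sum_map_add, List.sum_map_mul_left, List.sum_map_mul_left,
    ← sumsq_flatMap, ← sumsq_flatMap, ← sumsq_flatMap] at hsum
  have b1 := hF _ f1
  have b2 := mul_le_mul_of_nonneg_left (hG _ f2) (sq_nonneg ε)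
  have b3 := mul_le_mul_of_nonneg_left (hG _ f3) (by positivity : (0:ℝ) ≤ 12 * ε ^ 2)
  linarith

theorem sqBound_anc {Φ : Finset Node} (hΦ : Downset Φ) {F : Node → ℝ} {CF : ℝ}
    (hF : SqBound F CF) : SqBound (fun v => F (anc Φ v)) CF := by
  have hz : SqBound (fun _ : Node => (0:ℝ)) 0 := by
    intro L _; simp [sumsq, val]
  simpa using sqBound_glue hΦ (G' := fun _ => (0:ℝ)) hF hz (ε := 0) le_rfl (fun _ => 0)
    (fun n l _ => by simp) (fun n l h => ⟨l, h, rfl, by simp⟩) (fun n l _ => by simp)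
    (fun n l l' _ => by simp) (fun n l _ => le_rfl) (fun n l _ => le_rfl)

end Vale.Agent.P069
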