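import Vale.Agent.P069.Tree

/-!
Every functional on `JT` is small on the vectors vanishing on a suitable finite downset.
-/

noncomputable section

namespace Vale.Agent.P069

open Classical in
/-- The potential of the unit vector at the edge `u`. -/
def indFun (u v : Node) : ℝ := if u.2 ≠ [] ∧ u.1 = v.1 ∧ u.2 <:+ v.2 then 1 else 0

theorem val_indFun_cases (u : Node) (s : Seg) :
    val (indFun u) s = 0 ∨ (|val (indFun u) s| ≤ 1 ∧ u ∈ s.edges) := by
  classical
  obtain ⟨n, p⟩ := u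
  by_cases h1 : p ≠ [] ∧ n = s.n ∧ p <:+ s.l
  · obtain ⟨hp, rfl, hsuf⟩ := h1
    by_cases h2 : p <:+ s.l.drop s.k
    · left
      simp [val, indFun, hp, hsuf, h2]
    · right
      refine ⟨by simp [val, indFun, hp, hsuf, h2], s.l.length - p.length, ?_, ?_⟩
      · by_contra hc
        apply h2
        rw [List.suffix_iff_eq_drop.1 hsuf]
        exact List.drop_suffix_drop_left _ (not_lt.1 hc)
      · rw [← List.suffix_iff_eq_drop.1 hsuf]
  · left
    have h2 : ¬(p ≠ [] ∧ n = s.n ∧ p <:+ s.l.drop s.k) := fun h =>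
      h1 ⟨h.1, h.2.1, h.2.2.trans (List.drop_suffix _ _)⟩
    simp only [val, indFun, if_neg h1, if_neg h2, sub_zero]

theorem sqBound_indFun (u : Node) : SqBound (indFun u) 1 := by
  intro L hL
  induction L with
  | nil => simp [sumsq]
  | cons s L ih =>
    have hL' := List.pairwise_cons.1 hL
    rw [sumsq, List.map_cons, List.sum_cons]
    rcases val_indFun_cases u s with h | ⟨hle, hu⟩
    · simpa [h, sumsq] using ih hL'.2
    · have h0 : (L.map fun t => val (indFun u) t ^ 2).sum = 0 := by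
        apply List.sum_eq_zero
        simp only [List.mem_map]
        rintro _ ⟨t, ht, rfl⟩
        rcases val_indFun_cases u t with h | ⟨-, hu'⟩
        · simp [h]
        · exact absurd hu' (Set.disjoint_left.1 (hL'.1 t ht) hu)
      rw [h0, add_zero]
      exact (sq_le_one_iff_abs_le_one _).2 hle

/-- The unit vector at the edge `u`. -/
def unit (u : Node) : JT := mk (indFun u) (sqBound_indFun u)

theorem pot_unit (u : Node) (n : ℕ) (l : List ℕ) (h : l.length ≤ n) :
    pot (unit u) (n, l) = indFun u (n, l) := by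
  apply pot_mk _ _ n l h
  unfold indFun
  rw [if_neg]
  rintro ⟨h1, -, h2⟩
  exact h1 (List.suffix_nil.1 h2)

/-- The coordinate functional at the edge `u`. -/
def edgeCLM (u : Node) : JT →L[ℝ] ℝ := potCLM u - potCLM (u.1, u.2.tail)

theorem edgeCLM_apply (u : Node) (φ : JT) :
    edgeCLM u φ = pot φ u - pot φ (u.1, u.2.tail) := rfl

theorem edgeCLM_unit (u v : Node) (hu : u.2 ≠ []) (hul : u.2.length ≤ u.1) (hv : v.2 ≠ []) :
    edgeCLM u (unit v) = if u = v then 1 else 0 := by
  classical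
  obtain ⟨n, l⟩ := u
  obtain ⟨k, p⟩ := v
  rw [edgeCLM_apply, pot_unit _ _ _ hul,
    pot_unit _ _ _ (by simp only [List.length_tail] at *; omega)]
  cases l with
  | nil => exact absurd rfl hu
  | cons a l =>
    simp only [List.tail_cons, indFun]
    by_cases hk : k = n
    · subst hk
      by_cases h1 : p = a :: l
      · subst h1
        have : ¬ a :: l <:+ l := fun h => by simpa using h.length_le
        simp [this]
      · have h2 : ¬ ((k, a :: l) = ((k, p) : Node)) := fun h => h1 (congrArg Prod.snd h).symm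
        simp [List.suffix_cons_iff, h1, h2, hv]
    · have h2 : ¬ ((n, a :: l) = ((k, p) : Node)) := fun h => hk (congrArg Prod.fst h).symm
      simp [hk, h2]

theorem pot_sum {α : Type} (W : Finset α) (f : α → JT) (v : Node) :
    pot (∑ u ∈ W, f u) v = ∑ u ∈ W, pot (f u) v := by
  rw [← potCLM_apply, map_sum]
  simp only [potCLM_apply]

/-- A finite combination of unit vectors. -/
def comb (W : Finset Node) (c : Node → ℝ) : JT := ∑ u ∈ W, c u • unit u

theorem edgeCLM_comb (W : Finset Node) (c : Node → ℝ) (hW : ∀ v ∈ W, v.2 ≠ []) (u : Node)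
    (hu : u.2 ≠ []) (hul : u.2.length ≤ u.1) :
    edgeCLM u (comb W c) = if u ∈ W then c u else 0 := by
  classical
  rw [comb, map_sum]
  have : ∀ v ∈ W, edgeCLM u (c v • unit v) = if u = v then c v else 0 := by
    intro v hv
    rw [map_smul, edgeCLM_unit u v hu hul (hW v hv)]
    simp
  rw [Finset.sum_congr rfl this, Finset.sum_ite_eq]

theorem pot_comb (W : Finset Node) (c : Node → ℝ) (n : ℕ) (l : List ℕ) (h : l.length ≤ n) :
    pot (comb W c) (n, l) = ∑ u ∈ W, c u * indFun u (n, l) := by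
  rw [comb, pot_sum]
  refine Finset.sum_congr rfl fun u _ => ?_
  rw [pot_smul, pot_unit u n l h]

theorem sum_indFun {Φ : Finset Node} (hΦ : Downset Φ) (F : Node → ℝ) (h0 : ∀ n, F (n, []) = 0)
    (n : ℕ) (l : List ℕ) :
    ∑ u ∈ Φ, (F u - F (u.1, u.2.tail)) * indFun u (n, l) = F (anc Φ (n, l)) := by
  classical
  induction l with
  | nil =>
    rw [anc_of_inB (Or.inl rfl), h0]
    refine Finset.sum_eq_zero fun u _ => ?_
    unfold indFun
    rw [if_neg, mul_zero]
    rintro ⟨h1, -, h2⟩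
    exact h1 (List.suffix_nil.1 h2)
  | cons a l ih =>
    by_cases hm : (n, a :: l) ∈ Φ
    · have hl : InB Φ n l := by simpa [InB] using (hΦ _ hm).2.2
      rw [anc_of_inB (Or.inr hm)]
      rw [anc_of_inB hl] at ih
      have key : ∀ u ∈ Φ, (F u - F (u.1, u.2.tail)) * indFun u (n, a :: l) =
          (if u = (n, a :: l) then F (n, a :: l) - F (n, l) else 0) +
            (F u - F (u.1, u.2.tail)) * indFun u (n, l) := by
        intro u hu
        by_cases he : u = (n, a :: l)
        · subst he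
          have : ¬ a :: l <:+ l := fun h => by simpa using h.length_le
          simp [indFun, this]
        · rw [if_neg he, zero_add]
          congr 1
          obtain ⟨k, p⟩ := u
          have : k = n → p ≠ a :: l := fun hk hp => he (by rw [hk, hp])
          by_cases hk : k = n
          · subst hk
            simp [indFun, List.suffix_cons_iff, this rfl]
          · simp [indFun, hk]
      rw [Finset.sum_congr rfl key, Finset.sum_add_distrib, Finset.sum_ite_eq' Φ, if_pos hm, ih]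
      ring
    · have hd : 1 ≤ dep Φ n (a :: l) := by
        by_contra hc
        have h0' : dep Φ n (a :: l) = 0 := by omega
        have h := dep_spec Φ n (a :: l)
        rw [h0', List.drop_zero] at h
        rcases h with h | h
        · simp at h
        · exact hm h
      rw [← anc_drop Φ n (a :: l) 1 hd]
      simp only [List.drop_one, List.tail_cons]
      rw [← ih]
      refine Finset.sum_congr rfl fun u hu => ?_
      congr 1
      obtain ⟨k, p⟩ := u
      by_cases hk : k = n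
      · subst hk
        have : p ≠ a :: l := fun hp => hm (hp ▸ hu)
        simp [indFun, List.suffix_cons_iff, this]
      · simp [indFun, hk]

/-- The projection of `φ` onto the coordinates in `Φ`. -/
def proj (Φ : Finset Node) (φ : JT) : JT := comb Φ fun u => edgeCLM u φ

theorem pot_proj {Φ : Finset Node} (hΦ : Downset Φ) (φ : JT) (n : ℕ) (l : List ℕ)
    (h : l.length ≤ n) : pot (proj Φ φ) (n, l) = pot φ (anc Φ (n, l)) := by
  rw [proj, pot_comb _ _ n l h]
  exact sum_indFun hΦ (pot φ) (pot_root φ) n l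

theorem val_congr {F G : Node → ℝ} (h : ∀ n l, l.length ≤ n → F (n, l) = G (n, l)) (s : Seg) :
    val F s = val G s := by
  simp only [val]
  rw [h _ _ s.hl, h _ _ (by have := s.hl; rw [List.length_drop]; omega)]

theorem SqBound.congr {F G : Node → ℝ} {C : ℝ}
    (h : ∀ n l, l.length ≤ n → F (n, l) = G (n, l)) (hG : SqBound G C) : SqBound F C := by
  intro L hL
  have : sumsq F L = sumsq G L := by
    simp only [sumsq, val_congr h]
  rw [this]; exact hG L hL

theorem norm_proj_le {Φ : Finset Node} (hΦ : Downset Φ) (φ : JT) : ‖proj Φ φ‖ ≤ ‖φ‖ :=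
  norm_le_of_sqBound _ (norm_nonneg _)
    ((sqBound_anc hΦ (sqBound_pot φ)).congr (pot_proj hΦ φ))

/-- `φ` lives on the trees of heights at most `N`. -/
def Low (N : ℕ) (φ : JT) : Prop := ∀ n l, l.length ≤ n → N < n → pot φ (n, l) = 0

/-- `φ` lives on the trees of heights above `N`. -/
def High (N : ℕ) (φ : JT) : Prop := ∀ n l, l.length ≤ n → n ≤ N → pot φ (n, l) = 0

def lowFun (N : ℕ) (φ : JT) (v : Node) : ℝ := if v.1 ≤ N then pot φ v else 0

theorem sqBound_lowFun (N : ℕ) (φ : JT) : SqBound (lowFun N φ) (‖φ‖ ^ 2) := by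
  intro L hL
  refine le_trans (List.sum_le_sum fun s _ => ?_) (sqBound_pot φ L hL)
  simp only [val, lowFun]
  split_ifs
  · exact le_rfl
  · simpa using sq_nonneg _

def lowPart (N : ℕ) (φ : JT) : JT := mk (lowFun N φ) (sqBound_lowFun N φ)

theorem pot_lowPart (N : ℕ) (φ : JT) (n : ℕ) (l : List ℕ) (h : l.length ≤ n) :
    pot (lowPart N φ) (n, l) = if n ≤ N then pot φ (n, l) else 0 := by
  rw [lowPart, pot_mk _ _ n l h (by simp [lowFun, pot_root])]
  rfl

theorem pot_sub (φ ψ : JT) (v : Node) : pot (φ - ψ) v = pot φ v - pot ψ v := by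
  simpa using map_sub (potCLM v) φ ψ

theorem low_lowPart (N : ℕ) (φ : JT) : Low N (lowPart N φ) := by
  intro n l h hn
  rw [pot_lowPart N φ n l h, if_neg (not_le.2 hn)]

theorem high_sub_lowPart (N : ℕ) (φ : JT) : High N (φ - lowPart N φ) := by
  intro n l h hn
  rw [pot_sub, pot_lowPart N φ n l h, if_pos hn, sub_self]

theorem norm_lowPart_le (N : ℕ) (φ : JT) : ‖lowPart N φ‖ ≤ ‖φ‖ := by
  refine norm_le_of_sqBound _ (norm_nonneg _) ((sqBound_lowFun N φ).congr fun n l h => ?_)
  rw [pot_lowPart N φ n l h]; rfl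

theorem norm_highPart_le (N : ℕ) (φ : JT) : ‖φ - lowPart N φ‖ ≤ ‖φ‖ := by
  refine norm_le_of_sqBound _ (norm_nonneg _) fun L hL => ?_
  refine le_trans (List.sum_le_sum fun s _ => ?_) (sqBound_pot φ L hL)
  have hl := s.hl
  simp only [val, pot_sub, pot_lowPart N φ _ _ hl,
    pot_lowPart N φ s.n (s.l.drop s.k) (by rw [List.length_drop]; omega)]
  split_ifs
  · simpa using sq_nonneg _
  · simp

theorem norm_add_sq_le {N : ℕ} {g h : JT} (hg : Low N g) (hh : High N h) :
    ‖g + h‖ ^ 2 ≤ ‖g‖ ^ 2 + ‖h‖ ^ 2 := by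
  apply norm_sq_le_of_sqBound
  intro L hL
  have e : ∀ s ∈ L, val (pot (g + h)) s ^ 2 = val (pot g) s ^ 2 + val (pot h) s ^ 2 := by
    intro s _
    have hl : (s.l.drop s.k).length ≤ s.n := by have := s.hl; rw [List.length_drop]; omega
    simp only [val, pot_add]
    by_cases hn : s.n ≤ N
    · rw [hh _ _ s.hl hn, hh _ _ hl hn]; ring
    · rw [hg _ _ s.hl (not_le.1 hn), hg _ _ hl (not_le.1 hn)]; ring
  rw [sumsq, List.map_congr_left e, List.sum_map_add]
  exact add_le_add (sqBound_pot g L hL) (sqBound_pot h L hL)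

theorem exists_fam_gt (φ : JT) {η : ℝ} (hη : 0 < η) :
    ∃ L, Fam L ∧ ‖φ‖ ^ 2 - η < sumsq (pot φ) L := by
  by_contra hc
  push Not at hc
  have := norm_sq_le_of_sqBound φ (C := ‖φ‖ ^ 2 - η) hc
  linarith

theorem exists_norm_high_le (φ : JT) {η : ℝ} (hη : 0 < η) :
    ∃ N, ‖φ - lowPart N φ‖ ≤ η := by
  obtain ⟨L, hL, hgt⟩ := exists_fam_gt φ (by positivity : (0:ℝ) < η ^ 2)
  refine ⟨(L.map Seg.n).sum, ?_⟩
  set N := (L.map Seg.n).sum with hN
  refine norm_le_of_sqBound _ hη.le fun L' hL' => ?_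
  let r : Seg → List Seg := fun s => if s.n ≤ N then [] else [s]
  have h1 : sumsq (pot (φ - lowPart N φ)) L' = sumsq (pot φ) (L'.flatMap r) := by
    rw [sumsq_flatMap, sumsq]
    congr 1
    refine List.map_congr_left fun s _ => ?_
    have hl := s.hl
    simp only [val, pot_sub, pot_lowPart N φ _ _ hl,
      pot_lowPart N φ s.n (s.l.drop s.k) (by rw [List.length_drop]; omega), r]
    split_ifs <;> simp [sumsq, val]
  have h2 : Fam (L ++ L'.flatMap r) := by
    unfold Fam
    rw [List.pairwise_append]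
    refine ⟨hL, hL'.flatMap r (fun s _ => by simp only [r]; split_ifs <;> simp [Fam])
      (fun s _ => by simp only [r]; split_ifs <;> simp), ?_⟩
    intro a ha b hb
    simp only [List.mem_flatMap, r] at hb
    obtain ⟨s, -, hs⟩ := hb
    split_ifs at hs with hsN
    · simp at hs
    · simp only [List.mem_singleton] at hs
      subst hs
      rw [Set.disjoint_left]
      rintro u ⟨i, -, rfl⟩ ⟨j, -, he⟩
      have hn : a.n = b.n := congrArg Prod.fst he
      have : a.n ≤ N := List.le_sum_of_mem (List.mem_map_of_mem ha)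
      omega
  have h3 := sqBound_pot φ _ h2
  rw [sumsq, List.map_append, List.sum_append] at h3
  rw [h1]
  simp only [sumsq] at *
  linarith

theorem exists_near_norm (x : StrongDual ℝ JT) {τ : ℝ} (hτ : 0 < τ) :
    ∃ g : JT, ‖g‖ ≤ 1 ∧ ‖x‖ - τ ≤ x g := by
  by_cases hx : ‖x‖ - τ ≤ 0
  · exact ⟨0, by simp, by simpa using hx⟩
  · push Not at hx
    obtain ⟨g, hg⟩ := x.exists_lt_apply_of_lt_opNorm (by linarith : ‖x‖ - τ < ‖x‖)
    obtain ⟨hg1, hg2⟩ := hg
    rcases abs_choice (x g) with h | h <;> rw [Real.norm_eq_abs, h] at hg2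
    · exact ⟨g, hg1.le, hg2.le⟩
    · exact ⟨-g, by simpa using hg1.le, by simpa using hg2.le⟩

theorem le_sq_of_le_mul {A X M : ℝ} (hA : 0 ≤ A) (hX : 0 ≤ X) (h1 : A ≤ X * M) (h2 : M ^ 2 ≤ A) :
    A ≤ X ^ 2 := by
  rcases hA.lt_or_eq with h | h
  · have h3 : A * A ≤ X ^ 2 * A := by
      calc A * A ≤ (X * M) * (X * M) := mul_self_le_mul_self hA h1
        _ = X ^ 2 * M ^ 2 := by ring
        _ ≤ X ^ 2 * A := mul_le_mul_of_nonneg_left h2 (sq_nonneg X)
    exact le_of_mul_le_mul_right h3 h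
  · rw [← h]; positivity

theorem sq_le_of_near {a b X τ η : ℝ} (h : a ^ 2 + b ^ 2 ≤ X ^ 2) (ha : X - 2 * τ ≤ a)
    (hX : 0 ≤ X) (hτ : 0 ≤ τ) (h9 : τ * (4 * (X + 1)) = η ^ 2) : b ^ 2 ≤ η ^ 2 := by
  rcases le_total (X - 2 * τ) 0 with hc | hc
  · nlinarith
  · have := mul_self_le_mul_self hc ha
    nlinarith

theorem abs_apply_le (x : StrongDual ℝ JT) (φ : JT) : |x φ| ≤ ‖x‖ * ‖φ‖ := by
  simpa [Real.norm_eq_abs] using x.le_opNorm φ

theorem high_low_sq_le (x : StrongDual ℝ JT) {N : ℕ} {g h : JT} (hg : Low N g) (hh : High N h)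
    (hg1 : ‖g‖ ≤ 1) (hh1 : ‖h‖ ≤ 1) : x g ^ 2 + x h ^ 2 ≤ ‖x‖ ^ 2 := by
  have hag : Low N (x g • g) := by
    intro n l hl hn; rw [pot_smul, hg n l hl hn, mul_zero]
  have hbh : High N (x h • h) := by
    intro n l hl hn; rw [pot_smul, hh n l hl hn, mul_zero]
  have h4 : ‖x g • g + x h • h‖ ^ 2 ≤ x g ^ 2 + x h ^ 2 := by
    refine (norm_add_sq_le hag hbh).trans ?_
    rw [norm_smul, norm_smul, mul_pow, mul_pow, Real.norm_eq_abs, Real.norm_eq_abs, sq_abs, sq_abs]
    exact add_le_add (mul_le_of_le_one_right (sq_nonneg _) (pow_le_one₀ (norm_nonneg _) hg1))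
      (mul_le_of_le_one_right (sq_nonneg _) (pow_le_one₀ (norm_nonneg _) hh1))
  have h5 : x g ^ 2 + x h ^ 2 ≤ ‖x‖ * ‖x g • g + x h • h‖ := by
    have := (le_abs_self _).trans (abs_apply_le x (x g • g + x h • h))
    rw [map_add, map_smul, map_smul, smul_eq_mul, smul_eq_mul, ← sq, ← sq] at this
    exact this
  exact le_sq_of_le_mul (by positivity) (norm_nonneg x) h5 h4

theorem exists_low_near (x : StrongDual ℝ JT) {τ : ℝ} (hτ : 0 < τ) :
    ∃ N g, Low N g ∧ ‖g‖ ≤ 1 ∧ ‖x‖ - 2 * τ ≤ x g := by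
  obtain ⟨g₀, hg₀, hxg₀⟩ := exists_near_norm x hτ
  obtain ⟨N, hN⟩ := exists_norm_high_le g₀ (by positivity : 0 < τ / (‖x‖ + 1))
  refine ⟨N, lowPart N g₀, low_lowPart N g₀, (norm_lowPart_le N g₀).trans hg₀, ?_⟩
  have h6 := (le_abs_self _).trans ((abs_apply_le x (g₀ - lowPart N g₀)).trans
    (mul_le_mul_of_nonneg_left hN (norm_nonneg x)))
  have h7 : ‖x‖ * (τ / (‖x‖ + 1)) ≤ τ := by
    rw [mul_div_assoc', div_le_iff₀ (by positivity)]
    nlinarith [norm_nonneg x]
  rw [map_sub] at h6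
  linarith

theorem exists_high_small (x : StrongDual ℝ JT) {η : ℝ} (hη : 0 < η) :
    ∃ N, ∀ h, High N h → |x h| ≤ η * ‖h‖ := by
  obtain ⟨τ, hτ, h9⟩ : ∃ τ, 0 < τ ∧ τ * (4 * (‖x‖ + 1)) = η ^ 2 :=
    ⟨η ^ 2 / (4 * (‖x‖ + 1)), by positivity, div_mul_cancel₀ _ (by positivity)⟩
  obtain ⟨N, g, hg, hg1, ha⟩ := exists_low_near x hτ
  refine ⟨N, fun h hh => ?_⟩
  rcases eq_or_ne h 0 with rfl | hne
  · simp
  have hbh : High N (‖h‖⁻¹ • h) := by
    intro n l hl hn; rw [pot_smul, hh n l hl hn, mul_zero]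
  have hb := abs_le_of_sq_le_sq
    (sq_le_of_near (high_low_sq_le x hg hbh hg1 (norm_smul_inv_norm hne).le) ha (norm_nonneg x)
      hτ.le h9) hη.le
  rw [map_smul, smul_eq_mul, abs_mul, abs_inv, abs_norm,
    inv_mul_le_iff₀ (norm_pos_iff.2 hne)] at hb
  linarith

/-- An edge in a tree of height at most `N`. -/
def Edge (N : ℕ) (u : Node) : Prop := u.1 ≤ N ∧ u.2 ≠ [] ∧ u.2.length ≤ u.1

theorem exists_tail_small (P : Node → Prop) (f : Node → ℝ) {C : ℝ}
    (hb : ∀ W : Finset Node, (∀ u ∈ W, P u) → ∑ u ∈ W, f u ≤ C) {τ : ℝ} (hτ : 0 < τ) :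
    ∃ W₀ : Finset Node, (∀ u ∈ W₀, P u) ∧
      ∀ W : Finset Node, (∀ u ∈ W, P u ∧ u ∉ W₀) → ∑ u ∈ W, f u ≤ τ := by
  classical
  by_contra hc
  push Not at hc
  have : ∀ k : ℕ, ∃ W : Finset Node, (∀ u ∈ W, P u) ∧ τ * k ≤ ∑ u ∈ W, f u := by
    intro k
    induction k with
    | zero => exact ⟨∅, by simp, by simp⟩
    | succ k ih =>
      obtain ⟨W, hW, hs⟩ := ih
      obtain ⟨W', hW', hs'⟩ := hc W hW
      refine ⟨W ∪ W', ?_, ?_⟩
      · intro u hu
        rcases Finset.mem_union.1 hu with h | h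
        · exact hW u h
        · exact (hW' u h).1
      · rw [Finset.sum_union (Finset.disjoint_right.2 fun u hu => (hW' u hu).2)]
        push_cast
        linarith
  obtain ⟨k, hk⟩ := exists_nat_gt (C / τ)
  obtain ⟨W, hW, hs⟩ := this k
  have := hb W hW
  rw [div_lt_iff₀ hτ] at hk
  linarith

theorem norm_sq_le_of_edges {N : ℕ} {φ : JT} (hφ : Low N φ) {C : ℝ}
    (hC : ∀ W : Finset Node, (∀ u ∈ W, Edge N u) → ∑ u ∈ W, edgeCLM u φ ^ 2 ≤ C) :
    ‖φ‖ ^ 2 ≤ N * C := by
  classical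
  apply norm_sq_le_of_sqBound
  intro L hL
  suffices ∃ W : Finset Node, (∀ u ∈ W, Edge N u ∧ ∃ s ∈ L, u ∈ s.edges) ∧
      sumsq (pot φ) L ≤ N * ∑ u ∈ W, edgeCLM u φ ^ 2 by
    obtain ⟨W, hW, hs⟩ := this
    exact hs.trans (mul_le_mul_of_nonneg_left (hC W fun u hu => (hW u hu).1) (Nat.cast_nonneg N))
  induction L with
  | nil => exact ⟨∅, by simp, by simp [sumsq]⟩
  | cons s L ih =>
    have hL' := List.pairwise_cons.1 hL
    obtain ⟨W, hW, hs⟩ := ih hL'.2
    have hl : (s.l.drop s.k).length ≤ s.n := by have := s.hl; rw [List.length_drop]; omega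
    by_cases hn : s.n ≤ N
    · set V : Finset Node := (Finset.range s.k).image fun i => (s.n, s.l.drop i) with hV
      have hVmem : ∀ u ∈ V, u ∈ s.edges := by
        intro u hu
        simp only [hV, Finset.mem_image, Finset.mem_range] at hu
        obtain ⟨i, hi, rfl⟩ := hu
        exact ⟨i, hi, rfl⟩
      refine ⟨W ∪ V, ?_, ?_⟩
      · intro u hu
        rcases Finset.mem_union.1 hu with h | h
        · obtain ⟨he, t, ht, hut⟩ := hW u h
          exact ⟨he, t, List.mem_cons_of_mem _ ht, hut⟩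
        · obtain ⟨i, hi, rfl⟩ := hVmem u h
          have := s.hl
          have := s.hk
          refine ⟨⟨hn, ?_, ?_⟩, s, List.mem_cons_self, ⟨i, hi, rfl⟩⟩
          · simp only [ne_eq, List.drop_eq_nil_iff]; omega
          · simp only [List.length_drop]; omega
      · have hdisj : Disjoint W V := by
          rw [Finset.disjoint_left]
          intro u hu hv
          obtain ⟨-, t, ht, hut⟩ := hW u hu
          exact Set.disjoint_left.1 (hL'.1 t ht) (hVmem u hv) hut
        have htel : val (pot φ) s = ∑ i ∈ Finset.range s.k, edgeCLM (s.n, s.l.drop i) φ := by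
          simp only [edgeCLM_apply, List.tail_drop]
          rw [Finset.sum_range_sub' (fun i => pot φ (s.n, s.l.drop i)) s.k, List.drop_zero]
          rfl
        have hVsum : ∑ u ∈ V, edgeCLM u φ ^ 2 =
            ∑ i ∈ Finset.range s.k, edgeCLM (s.n, s.l.drop i) φ ^ 2 := by
          rw [hV, Finset.sum_image]
          intro i hi j hj he
          simp only [Finset.mem_coe, Finset.mem_range] at hi hj
          have := s.hk
          exact drop_inj_of_le (by omega) (by omega) (congrArg Prod.snd he)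
        have hcs : val (pot φ) s ^ 2 ≤ N * ∑ u ∈ V, edgeCLM u φ ^ 2 := by
          rw [htel, hVsum]
          refine (sq_sum_le_card_mul_sum_sq).trans ?_
          rw [Finset.card_range]
          refine mul_le_mul_of_nonneg_right ?_ (Finset.sum_nonneg fun i _ => sq_nonneg _)
          have := s.hk
          have := s.hl
          exact_mod_cast (by omega : s.k ≤ N)
        rw [Finset.sum_union hdisj, mul_add]
        simp only [sumsq, List.map_cons, List.sum_cons] at hs ⊢
        linarith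
    · refine ⟨W, fun u hu => ?_, ?_⟩
      · obtain ⟨he, t, ht, hut⟩ := hW u hu
        exact ⟨he, t, List.mem_cons_of_mem _ ht, hut⟩
      · simp only [sumsq, List.map_cons, List.sum_cons] at hs ⊢
        simp only [val, hφ _ _ s.hl (not_le.1 hn), hφ _ _ hl (not_le.1 hn)] at hs ⊢
        simpa using hs

theorem sum_edge_sq_le (φ : JT) (W : Finset Node)
    (hW : ∀ u ∈ W, u.2 ≠ [] ∧ u.2.length ≤ u.1) : ∑ u ∈ W, edgeCLM u φ ^ 2 ≤ ‖φ‖ ^ 2 := by
  classical
  let mkSeg : W → Seg := fun u =>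
    ⟨u.1.1, u.1.2, 1, (hW u.1 u.2).2, List.length_pos_iff.2 (hW u.1 u.2).1⟩
  have hfam : Fam (W.attach.toList.map mkSeg) := by
    unfold Fam
    rw [List.pairwise_map]
    refine W.attach.nodup_toList.imp ?_
    intro a b hab
    rw [Set.disjoint_left]
    rintro u ⟨i, hi, rfl⟩ ⟨j, hj, he⟩
    apply hab
    have hi0 : i = 0 := Nat.lt_one_iff.1 hi
    have hj0 : j = 0 := Nat.lt_one_iff.1 hj
    subst hi0 hj0
    exact Subtype.ext (by simpa [mkSeg] using he)
  have := sqBound_pot φ _ hfam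
  rw [sumsq, List.map_map, Finset.sum_map_toList] at this
  rw [← Finset.sum_attach]
  refine le_trans (le_of_eq (Finset.sum_congr rfl fun u _ => ?_)) this
  simp [Function.comp, mkSeg, val, edgeCLM_apply, List.drop_one]

theorem low_comb {N : ℕ} (W : Finset Node) (c : Node → ℝ) (hW : ∀ u ∈ W, u.1 ≤ N) :
    Low N (comb W c) := by
  intro n l h hn
  rw [pot_comb W c n l h]
  refine Finset.sum_eq_zero fun u hu => ?_
  have : u.1 ≠ n := by have := hW u hu; omega
  simp [indFun, this]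

theorem coeff_sq_sum_le (x : StrongDual ℝ JT) {N : ℕ} (W : Finset Node)
    (hW : ∀ u ∈ W, Edge N u) : ∑ u ∈ W, x (unit u) ^ 2 ≤ N * ‖x‖ ^ 2 := by
  classical
  set S := ∑ u ∈ W, x (unit u) ^ 2 with hS
  have hS0 : 0 ≤ S := Finset.sum_nonneg fun u _ => sq_nonneg _
  set g := comb W fun u => x (unit u) with hg
  have h1 : ‖g‖ ^ 2 ≤ N * S := by
    apply norm_sq_le_of_edges (low_comb W _ fun u hu => (hW u hu).1)
    intro W' hW'
    have : ∀ u ∈ W', edgeCLM u g ^ 2 = if u ∈ W then x (unit u) ^ 2 else 0 := by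
      intro u hu
      rw [hg, edgeCLM_comb W _ (fun v hv => (hW v hv).2.1) u (hW' u hu).2.1 (hW' u hu).2.2]
      split_ifs <;> simp
    rw [Finset.sum_congr rfl this, ← Finset.sum_filter]
    exact Finset.sum_le_sum_of_subset_of_nonneg (fun u hu => (Finset.mem_filter.1 hu).2)
      fun u _ _ => sq_nonneg _
  have h2 : S ≤ ‖x‖ * ‖g‖ := by
    have e : x g = S := by
      simp [hg, comb, map_sum, hS, sq]
    have := x.le_opNorm g
    rw [e, Real.norm_eq_abs, abs_of_nonneg hS0] at this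
    exact this
  rcases hS0.lt_or_eq with h | h
  · nlinarith [mul_self_le_mul_self hS0 h2, mul_le_mul_of_nonneg_left h1 (sq_nonneg ‖x‖)]
  · rw [← h]; positivity

theorem exists_low_small (x : StrongDual ℝ JT) (N : ℕ) {η : ℝ} (hη : 0 < η) :
    ∃ Φ : Finset Node, Downset Φ ∧
      ∀ φ, Low N φ → (∀ u ∈ Φ, pot φ u = 0) → |x φ| ≤ η * ‖φ‖ := by
  classical
  obtain ⟨W₀, hW₀, htail⟩ := exists_tail_small (Edge N) (fun u => x (unit u) ^ 2)
    (fun W hW => coeff_sq_sum_le x W hW) (by positivity : (0:ℝ) < η ^ 2)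
  obtain ⟨Φ, hΦ, hsub⟩ := exists_downset W₀ fun u hu => (hW₀ u hu).2
  refine ⟨Φ, hΦ, fun φ hφ hzero => ?_⟩
  have hd0 : ∀ u ∈ Φ, edgeCLM u φ = 0 := by
    intro u hu
    rw [edgeCLM_apply, hzero u hu]
    rcases (hΦ u hu).2.2 with h | h
    · rw [h, pot_root]; simp
    · rw [hzero _ h]; simp
  refine le_of_forall_pos_le_add fun ζ hζ => ?_
  set τ := (ζ / (‖x‖ + 1)) ^ 2 / ((N : ℝ) + 1) with hτdef
  obtain ⟨V, hV, hVtail⟩ := exists_tail_small (Edge N) (fun u => edgeCLM u φ ^ 2)
    (fun W hW => sum_edge_sq_le φ W fun u hu => (hW u hu).2) (by positivity : 0 < τ)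
  set g := comb V fun u => edgeCLM u φ with hg
  have hglow : Low N (φ - g) := by
    intro n l hl hn
    rw [pot_sub, hφ n l hl hn, hg, low_comb V _ (fun u hu => (hV u hu).1) n l hl hn, sub_zero]
  have h1 : ‖φ - g‖ ^ 2 ≤ N * τ := by
    apply norm_sq_le_of_edges hglow
    intro W hW
    have : ∀ u ∈ W, edgeCLM u (φ - g) ^ 2 = if u ∈ V then 0 else edgeCLM u φ ^ 2 := by
      intro u hu
      rw [map_sub, hg, edgeCLM_comb V _ (fun v hv => (hV v hv).2.1) u (hW u hu).2.1 (hW u hu).2.2]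
      split_ifs <;> simp
    rw [Finset.sum_congr rfl this, Finset.sum_ite, Finset.sum_const_zero, zero_add]
    exact hVtail _ fun u hu => ⟨hW u (Finset.mem_filter.1 hu).1, (Finset.mem_filter.1 hu).2⟩
  have h2 : ‖φ - g‖ ≤ ζ / (‖x‖ + 1) := by
    apply le_of_sq_le_sq ?_ (by positivity)
    refine h1.trans ?_
    have : τ * ((N : ℝ) + 1) = (ζ / (‖x‖ + 1)) ^ 2 := div_mul_cancel₀ _ (by positivity)
    have : 0 ≤ τ := by positivity
    linarith
  have h3 : |x g| ≤ η * ‖φ‖ := by
    have e : x g = ∑ u ∈ V.filter (fun u => u ∉ Φ), edgeCLM u φ * x (unit u) := by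
      simp only [hg, comb, map_sum, map_smul, smul_eq_mul]
      refine (Finset.sum_filter_of_ne (p := fun u => u ∉ Φ) fun u hu hne hu' => hne ?_).symm
      rw [hd0 u hu', zero_mul]
    rw [e]
    apply abs_le_of_sq_le_sq ?_ (by positivity)
    refine (Finset.sum_mul_sq_le_sq_mul_sq _ _ _).trans ?_
    rw [mul_pow, mul_comm (η ^ 2)]
    refine mul_le_mul ?_ ?_ (Finset.sum_nonneg fun u _ => sq_nonneg _) (sq_nonneg _)
    · exact sum_edge_sq_le φ _ fun u hu => (hV u (Finset.mem_filter.1 hu).1).2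
    · exact htail _ fun u hu => ⟨hV u (Finset.mem_filter.1 hu).1,
        fun h => (Finset.mem_filter.1 hu).2 (hsub h)⟩
  have h4 : |x (φ - g)| ≤ ζ := by
    refine ((Real.norm_eq_abs _).symm.le.trans (x.le_opNorm _)).trans ?_
    refine (mul_le_mul_of_nonneg_left h2 (norm_nonneg x)).trans ?_
    rw [mul_div_assoc', div_le_iff₀ (by positivity)]
    nlinarith [norm_nonneg x]
  have h5 := abs_add_le (x g) (x (φ - g))
  rw [← map_add, add_sub_cancel] at h5
  linarith

theorem exists_small (x : StrongDual ℝ JT) {η : ℝ} (hη : 0 < η) :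
    ∃ Φ : Finset Node, Downset Φ ∧
      ∀ φ, (∀ u ∈ Φ, pot φ u = 0) → |x φ| ≤ η * ‖φ‖ := by
  obtain ⟨N, hN⟩ := exists_high_small x (half_pos hη)
  obtain ⟨Φ, hΦ, hlow⟩ := exists_low_small x N (half_pos hη)
  refine ⟨Φ, hΦ, fun φ hzero => ?_⟩
  have h1 := hN _ (high_sub_lowPart N φ)
  have h2 := hlow _ (low_lowPart N φ) fun u hu => by
    rw [pot_lowPart N φ u.1 u.2 (hΦ u hu).2.1]
    simp [hzero u hu]
  have h3 := abs_add_le (x (lowPart N φ)) (x (φ - lowPart N φ))
  rw [← map_add, add_sub_cancel] at h3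
  have h4 := mul_le_mul_of_nonneg_left (norm_lowPart_le N φ) (half_pos hη).le
  have h5 := mul_le_mul_of_nonneg_left (norm_highPart_le N φ) (half_pos hη).le
  linarith

theorem pot_sub_proj {Φ : Finset Node} (hΦ : Downset Φ) (φ : JT) :
    ∀ u ∈ Φ, pot (φ - proj Φ φ) u = 0 := by
  intro u hu
  obtain ⟨n, l⟩ := u
  rw [pot_sub, pot_proj hΦ φ n l (hΦ _ hu).2.1, anc_of_inB (Or.inr hu), sub_self]

end Vale.Agent.P069
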